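import Vale.Agent.P151G.AknB

/-! The two cluster bound summed over a finite region. -/

namespace Vale.Agent.P151G

open Vale.Agent.P151

variable {V : Type*} [DecidableEq V] {nb : V → Finset V} {Δ : ℕ}

/-- The contribution of one edge. -/
noncomputable def aknR (p : ℝ) (n : ℕ) (F : Finset (Sym2 V)) (Λ : Finset V) (e : Sym2 V) : ℝ :=
  Ex (fun _ => p) F (fun ω => ∑ x ∈ Λ, ag n (clu ω x).card *
    (ind (Touch (↑(clu ω x) : Set V) e) * (p - ind (e ∈ ω))))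

theorem akn_stay {Λ : Finset V} {ω : Finset (Sym2 V)} (hω : ω ⊆ inE nb Λ) {a x : V}
    (ha : a ∈ Λ) (h : Conn ω a x) : x ∈ Λ :=
  h.closed (P := fun v => v ∈ Λ) ha fun _ y _ hxy =>
    mem_of_mem_inE (hω hxy) (Sym2.mem_mk_right _ y)

theorem akn_R {p : ℝ} (hp0 : 0 ≤ p) (hp1 : p ≤ 1) {n : ℕ} (hn : 1 ≤ n) {Λ : Finset V} {a b : V}
    (ha : a ∈ Λ) (hb : b ∈ Λ) (hab : b ∈ nb a) :
    p * Ex (fun _ => p) (inE nb Λ) (fun ω => ind (Tw n a b ω)) ≤
      aknR p n (inE nb Λ) Λ s(a, b) := by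
  refine (akn_edge hp0 hp1 hn (inE nb Λ) (mem_inE.2 ⟨a, ha, b, hb, hab, rfl⟩)).trans (le_of_eq ?_)
  refine Ex_congr fun ω hω => ?_
  have hsub : clu ω a ∪ clu ω b ⊆ Λ := fun x hx => by
    rcases Finset.mem_union.1 hx with h | h
    · exact akn_stay hω ha (mem_clu.1 h)
    · exact akn_stay hω hb (mem_clu.1 h)
  have hiff : ∀ x, Touch (↑(clu ω x) : Set V) s(a, b) ↔ x ∈ clu ω a ∪ clu ω b := fun x => by
    rw [touch_mk, Finset.mem_union, Finset.mem_coe, Finset.mem_coe, mem_clu, mem_clu, mem_clu,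
      mem_clu]
    exact or_congr ⟨Conn.symm, Conn.symm⟩ ⟨Conn.symm, Conn.symm⟩
  rw [Finset.sum_mul, ← Finset.sum_subset hsub]
  · exact Finset.sum_congr rfl fun x hx => by rw [ind_pos ((hiff x).2 hx), one_mul]
  · intro x _ hx
    rw [ind_neg (fun h => hx ((hiff x).1 h)), zero_mul, mul_zero]

theorem akn_pairs (Λ : Finset V) (R : Sym2 V → ℝ) (hR : ∀ e ∈ inE nb Λ, 0 ≤ R e) :
    ∑ a ∈ Λ, ∑ b ∈ (nb a).filter (fun b => b ∈ Λ), R s(a, b) ≤ 2 * ∑ e ∈ inE nb Λ, R e := by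
  classical
  rw [Finset.sum_sigma']
  have hmap : ∀ q ∈ Λ.sigma (fun a => (nb a).filter (fun b => b ∈ Λ)),
      s(q.1, q.2) ∈ inE nb Λ := fun q hq => by
    obtain ⟨h1, h2⟩ := Finset.mem_sigma.1 hq
    exact mem_inE.2 ⟨q.1, h1, q.2, (Finset.mem_filter.1 h2).2, (Finset.mem_filter.1 h2).1, rfl⟩
  rw [← Finset.sum_fiberwise_of_maps_to hmap, Finset.mul_sum]
  refine Finset.sum_le_sum fun e he => ?_
  rw [Finset.sum_congr rfl (g := fun _ => R e) fun q hq => by rw [(Finset.mem_filter.1 hq).2],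
    Finset.sum_const, nsmul_eq_mul]
  refine mul_le_mul_of_nonneg_right ?_ (hR e he)
  induction e using Sym2.ind with
  | h x y =>
    have hs : (Λ.sigma (fun a => (nb a).filter (fun b => b ∈ Λ))).filter
        (fun q => s(q.1, q.2) = s(x, y)) ⊆ {⟨x, y⟩, ⟨y, x⟩} := fun q hq => by
      obtain ⟨a, b⟩ := q
      rcases Sym2.eq_iff.1 (Finset.mem_filter.1 hq).2 with ⟨h1, h2⟩ | ⟨h1, h2⟩
      · simp only at h1 h2
        subst h1 h2
        exact Finset.mem_insert_self _ _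
      · simp only at h1 h2
        subst h1 h2
        exact Finset.mem_insert_of_mem (Finset.mem_singleton_self _)
    exact_mod_cast (Finset.card_le_card hs).trans Finset.card_le_two

theorem akn (hnb : Nb nb Δ) {p s : ℝ} (hp0 : 0 < p) (hp1 : p ≤ 1) {n : ℕ} (hs : 2 ≤ s)
    (hn : s ^ 2 ≤ n) (Λ : Finset V) :
    ∑ a ∈ Λ, ∑ b ∈ (nb a).filter (fun b => b ∈ Λ),
      Ex (fun _ => p) (inE nb Λ) (fun ω => ind (Tw n a b ω)) ≤
        2 * (2 * (Δ : ℝ) + 1) * Λ.card / (p * s) := by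
  have hw : Wt (fun _ : Sym2 V => p) := fun _ => ⟨hp0.le, hp1⟩
  have hn1 : 1 ≤ n := by
    have : (1 : ℝ) ≤ n := by nlinarith
    exact_mod_cast this
  have hR : ∀ e ∈ inE nb Λ, 0 ≤ aknR p n (inE nb Λ) Λ e := fun e he => by
    obtain ⟨a, ha, b, hb, hab, rfl⟩ := mem_inE.1 he
    exact (mul_nonneg hp0.le (Ex_ind_nonneg hw _)).trans (akn_R hp0.le hp1 hn1 ha hb hab)
  have h1 : p * ∑ a ∈ Λ, ∑ b ∈ (nb a).filter (fun b => b ∈ Λ),
      Ex (fun _ => p) (inE nb Λ) (fun ω => ind (Tw n a b ω)) ≤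
      ∑ a ∈ Λ, ∑ b ∈ (nb a).filter (fun b => b ∈ Λ), aknR p n (inE nb Λ) Λ s(a, b) := by
    rw [Finset.mul_sum]
    refine Finset.sum_le_sum fun a ha => ?_
    rw [Finset.mul_sum]
    exact Finset.sum_le_sum fun b hb =>
      akn_R hp0.le hp1 hn1 ha (Finset.mem_filter.1 hb).2 (Finset.mem_filter.1 hb).1
  have h2 : ∑ e ∈ inE nb Λ, aknR p n (inE nb Λ) Λ e =
      ∑ x ∈ Λ, Ex (fun _ => p) (inE nb Λ) (fun ω => ag n (clu ω x).card *
        ∑ e ∈ inE nb Λ, ind (Touch (↑(clu ω x) : Set V) e) * (p - ind (e ∈ ω))) := by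
    unfold aknR
    rw [← Ex_sum, ← Ex_sum]
    refine Ex_congr fun ω _ => ?_
    rw [Finset.sum_comm]
    exact Finset.sum_congr rfl fun x _ => (Finset.mul_sum _ _ _).symm
  have h3 : ∑ e ∈ inE nb Λ, aknR p n (inE nb Λ) Λ e ≤ Λ.card * ((2 * (Δ : ℝ) + 1) / s) := by
    rw [h2, ← nsmul_eq_mul]
    exact Finset.sum_le_card_nsmul _ _ _ fun x _ =>
      akn_mart hnb hp0.le hp1 hs hn _ (fun e he => isE_of_mem_inE he) x
  have h4 := akn_pairs Λ (aknR p n (inE nb Λ) Λ) hR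
  have hs0 : 0 < s := by linarith
  have h5 : 2 * (2 * (Δ : ℝ) + 1) * Λ.card / (p * s) =
      2 * (Λ.card * ((2 * (Δ : ℝ) + 1) / s)) / p := by
    field_simp
  rw [h5, le_div_iff₀ hp0, mul_comm]
  linarith

end Vale.Agent.P151G
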