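import Vale.Agent.P151G.Defs

/-! The two cluster bound: one edge. -/

namespace Vale.Agent.P151G

open Vale.Agent.P151

variable {V : Type*} [DecidableEq V]

/-- The weight of a vertex in a cluster of size `k`. -/
noncomputable def ag (n k : ℕ) : ℝ := 1 / (max k n : ℕ)

theorem akna_anti {n k l : ℕ} (hn : 1 ≤ n) (h : k ≤ l) : ag n l ≤ ag n k := by
  have h0 : (0 : ℝ) < (max k n : ℕ) := by exact_mod_cast lt_of_lt_of_le hn (le_max_right k n)
  exact one_div_le_one_div_of_le h0 (by exact_mod_cast max_le_max_right n h)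

theorem akna_one {n k : ℕ} (hn : 1 ≤ n) (h : n ≤ k) : (k : ℝ) * ag n k = 1 := by
  have h0 : (k : ℝ) ≠ 0 := by exact_mod_cast (lt_of_lt_of_le hn h).ne'
  rw [ag, max_eq_left h, mul_one_div, div_self h0]

theorem akna_sum (n : ℕ) (ω : Finset (Sym2 V)) (a : V) :
    ∑ x ∈ clu ω a, ag n (clu ω x).card = (clu ω a).card * ag n (clu ω a).card := by
  rw [Finset.sum_congr rfl fun x hx => by rw [← clu_eq (mem_clu.1 hx)], Finset.sum_const,
    nsmul_eq_mul]

theorem akna_ins (ω : Finset (Sym2 V)) (a b : V) :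
    clu (insert s(a, b) ω) a = clu ω a ∪ clu ω b := by
  have hab : Conn (insert s(a, b) ω) a b := Conn.single (Finset.mem_insert_self _ _)
  ext v
  rw [Finset.mem_union, mem_clu, mem_clu, mem_clu]
  refine ⟨fun h => h.closed (P := fun v => Conn ω a v ∨ Conn ω b v) (Or.inl (Conn.refl _ _)) ?_,
    fun h => h.elim (Conn.mono (Finset.subset_insert _ _))
      fun h => hab.trans (h.mono (Finset.subset_insert _ _))⟩
  intro x y hx he
  rcases Finset.mem_insert.1 he with h1 | h1
  · rcases Sym2.eq_iff.1 h1 with ⟨-, rfl⟩ | ⟨-, rfl⟩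
    · exact Or.inr (Conn.refl _ _)
    · exact Or.inl (Conn.refl _ _)
  · exact hx.imp (fun h => h.tail h1) fun h => h.tail h1

theorem akna_pt {n : ℕ} (hn : 1 ≤ n) (ω : Finset (Sym2 V)) (a b : V) :
    ind (Tw n a b ω) ≤ (∑ x ∈ clu ω a ∪ clu ω b, ag n (clu ω x).card) -
      ∑ x ∈ clu (insert s(a, b) ω) a ∪ clu (insert s(a, b) ω) b,
        ag n (clu (insert s(a, b) ω) x).card := by
  have hab : Conn (insert s(a, b) ω) a b := Conn.single (Finset.mem_insert_self _ _)
  rw [← clu_eq hab, Finset.union_self, akna_sum, akna_ins]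
  by_cases h : Conn ω a b
  · rw [ind_neg fun h' => h'.2.2 h, ← clu_eq h, Finset.union_self, akna_sum, sub_self]
  · have hd : Disjoint (clu ω a) (clu ω b) := Finset.disjoint_left.2 fun v h1 h2 =>
      h ((mem_clu.1 h1).trans (mem_clu.1 h2).symm)
    rw [Finset.sum_union hd, akna_sum, akna_sum, Finset.card_union_of_disjoint hd]
    by_cases h' : Tw n a b ω
    · rw [ind_pos h', akna_one hn h'.1, akna_one hn h'.2.1,
        akna_one hn (le_trans h'.1 (Nat.le_add_right _ _))]
      norm_num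
    · rw [ind_neg h', Nat.cast_add, add_mul]
      have h1 := mul_le_mul_of_nonneg_left
        (akna_anti hn (Nat.le_add_right (clu ω a).card (clu ω b).card))
        (Nat.cast_nonneg (α := ℝ) (clu ω a).card)
      have h2 := mul_le_mul_of_nonneg_left
        (akna_anti hn (Nat.le_add_left (clu ω b).card (clu ω a).card))
        (Nat.cast_nonneg (α := ℝ) (clu ω b).card)
      linarith

theorem akn_edge {p : ℝ} (hp0 : 0 ≤ p) (hp1 : p ≤ 1) {n : ℕ} (hn : 1 ≤ n) (F : Finset (Sym2 V))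
    {a b : V} (he : s(a, b) ∈ F) :
    p * Ex (fun _ => p) F (fun ω => ind (Tw n a b ω)) ≤
      Ex (fun _ => p) F (fun ω => (∑ x ∈ clu ω a ∪ clu ω b, ag n (clu ω x).card) *
        (p - ind (s(a, b) ∈ ω))) := by
  have hw : Wt (fun _ : Sym2 V => p) := fun _ => ⟨hp0, hp1⟩
  have he0 := Finset.notMem_erase s(a, b) F
  rw [← Finset.insert_erase he, Ex_insert he0, Ex_insert he0]
  generalize F.erase s(a, b) = F₀ at he0 ⊢
  have h1 : Ex (fun _ => p) F₀ (fun ω => ind (Tw n a b (insert s(a, b) ω))) = 0 := by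
    rw [← Ex_const (fun _ => p) F₀ 0]
    exact Ex_congr fun ω _ => ind_neg fun h => h.2.2 (Conn.single (Finset.mem_insert_self _ _))
  have h2 := Ex_mono (F := F₀) hw fun ω _ => akna_pt hn ω a b
  rw [Ex_sub] at h2
  have h3 : ∀ ω : Finset (Sym2 V), ind (s(a, b) ∈ insert s(a, b) ω) = 1 := fun ω =>
    ind_pos (Finset.mem_insert_self _ _)
  have h4 : Ex (fun _ => p) F₀ (fun ω => (∑ x ∈ clu ω a ∪ clu ω b, ag n (clu ω x).card) *
      (p - ind (s(a, b) ∈ ω))) =
      Ex (fun _ => p) F₀ (fun ω => ∑ x ∈ clu ω a ∪ clu ω b, ag n (clu ω x).card) * p := by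
    rw [← Ex_mul_right]
    exact Ex_congr fun ω hω => by rw [ind_neg fun h => he0 (hω h), sub_zero]
  simp only [h3]
  rw [h1, h4, Ex_mul_right]
  have h5 := mul_le_mul_of_nonneg_left h2 (mul_nonneg hp0 (sub_nonneg.2 hp1))
  linarith

end Vale.Agent.P151G
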