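import Vale.Agent.P151G.AknA

/-! The two cluster bound: the martingale of one cluster. -/

namespace Vale.Agent.P151G

open Vale.Agent.P151

variable {V : Type*} [DecidableEq V] {nb : V → Finset V} {Δ : ℕ}

theorem aknb_prod {ι : Type*} [DecidableEq ι] (p t : ℝ) (F : Finset ι) :
    Ex (fun _ => p) F (fun ω => ∏ e ∈ F, (1 + t * (p - ind (e ∈ ω)))) = 1 := by
  induction F using Finset.induction_on with
  | empty => simp
  | insert a F ha ih =>
    have h1 : Ex (fun _ => p) F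
        (fun ω => ∏ e ∈ insert a F, (1 + t * (p - ind (e ∈ insert a ω)))) =
        (1 + t * (p - 1)) * Ex (fun _ => p) F
          (fun ω => ∏ e ∈ F, (1 + t * (p - ind (e ∈ ω)))) := by
      rw [← Ex_mul_left]
      refine Ex_congr fun ω _ => ?_
      rw [Finset.prod_insert ha, ind_pos (Finset.mem_insert_self _ _)]
      congr 1
      refine Finset.prod_congr rfl fun e he => ?_
      rw [ind_congr (Finset.mem_insert.trans (or_iff_right fun h : e = a => ha (h ▸ he)))]
    have h2 : Ex (fun _ => p) F (fun ω => ∏ e ∈ insert a F, (1 + t * (p - ind (e ∈ ω)))) =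
        (1 + t * (p - 0)) * Ex (fun _ => p) F
          (fun ω => ∏ e ∈ F, (1 + t * (p - ind (e ∈ ω)))) := by
      rw [← Ex_mul_left]
      refine Ex_congr fun ω hω => ?_
      rw [Finset.prod_insert ha, ind_neg fun h => ha (hω h)]
    rw [Ex_insert ha, h1, h2, ih]
    ring

theorem aknb_prod' {ι : Type*} [DecidableEq ι] (p t : ℝ) {G F : Finset ι} (h : G ⊆ F) :
    Ex (fun _ => p) F (fun ω => ∏ e ∈ G, (1 + t * (p - ind (e ∈ ω)))) = 1 := by
  refine Eq.trans ?_ (aknb_prod p t G)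
  rw [← Ex_inter h]
  refine Ex_congr fun ω _ => Finset.prod_congr rfl fun e he => ?_
  rw [ind_congr (Finset.mem_inter.trans (and_iff_left he))]

open Classical in
theorem aknb_mart (p t : ℝ) (F : Finset (Sym2 V)) (x : V) :
    Ex (fun _ => p) F (fun ω => ∏ e ∈ F.filter (Touch (↑(clu ω x) : Set V)),
      (1 + t * (p - ind (e ∈ ω)))) = 1 := by
  have hc : ∀ ω : Finset (Sym2 V), (↑(clu ω x) : Set V) = Cl ω {x} := fun ω => by
    ext v
    rw [Finset.mem_coe, mem_clu, mem_Cl_singleton]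
  have h := Ex_stop (σ := Finset V × Finset (Sym2 V))
    (fun ω => (clu ω x, ω.filter (Touch (↑(clu ω x) : Set V))))
    (fun s e => Touch (↑s.1 : Set V) e)
    (fun ω ω' hω => by
      have h1 : clu ω' x = clu ω x := by
        apply Finset.coe_injective
        rw [hc, hc]
        exact Cl_stop fun e he => hω e (by rwa [← hc] at he)
      refine Prod.ext h1 ?_
      ext e
      simp only [Finset.mem_filter, h1]
      exact and_congr_left fun he => (hω e he).symm)
    (fun _ => p) F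
    (fun s η => (∏ e ∈ F.filter (Touch (↑s.1 : Set V)), (1 + t * (p - ind (e ∈ s.2)))) *
      ∏ e ∈ F.filter (fun e => ¬ Touch (↑s.1 : Set V) e), (1 + t * (p - ind (e ∈ η))))
  have h1 : ∀ ω : Finset (Sym2 V), ∏ e ∈ F.filter (Touch (↑(clu ω x) : Set V)),
      (1 + t * (p - ind (e ∈ ω.filter (Touch (↑(clu ω x) : Set V))))) =
      ∏ e ∈ F.filter (Touch (↑(clu ω x) : Set V)), (1 + t * (p - ind (e ∈ ω))) := fun ω =>
    Finset.prod_congr rfl fun e he => by
      rw [ind_congr (Finset.mem_filter.trans (and_iff_left (Finset.mem_filter.1 he).2))]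
  have h2 : ∀ (K : Set V) (ω : Finset (Sym2 V)), ∏ e ∈ F.filter (fun e => ¬ Touch K e),
      (1 + t * (p - ind (e ∈ ω.filter (fun e => ¬ Touch K e)))) =
      ∏ e ∈ F.filter (fun e => ¬ Touch K e), (1 + t * (p - ind (e ∈ ω))) := fun K ω =>
    Finset.prod_congr rfl fun e he => by
      have h3 : e ∈ ω.filter (fun e => ¬ Touch K e) ↔ e ∈ ω :=
        Finset.mem_filter.trans (and_iff_left (Finset.mem_filter.1 he).2)
      rw [ind_congr h3]
  simp only [h1, h2, Finset.prod_filter_mul_prod_filter_not, Ex_mul_left,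
    aknb_prod' p t (Finset.filter_subset _ F), mul_one, aknb_prod] at h
  exact h.symm

theorem aknb_exp {x : ℝ} (h : -(1 / 2) ≤ x) : Real.exp (x - 2 * x ^ 2) ≤ 1 + x := by
  have h0 : 0 < 1 + x := by linarith
  rw [← Real.le_log_iff_exp_le h0]
  refine le_trans ?_ (Real.one_sub_inv_le_log_of_pos h0)
  have h1 : 1 - (1 + x)⁻¹ = x - x ^ 2 / (1 + x) := by
    field_simp
    ring
  have h2 : x ^ 2 / (1 + x) ≤ 2 * x ^ 2 := by
    rw [div_le_iff₀ h0]
    nlinarith [mul_nonneg (sq_nonneg x) (show 0 ≤ 1 + 2 * x by linarith)]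
  linarith

theorem aknb_low {ι : Type*} (D : Finset ι) (y : ι → ℝ) (hy : ∀ e, -1 ≤ y e ∧ y e ≤ 1) {t : ℝ}
    (ht0 : 0 ≤ t) (ht : t ≤ 1 / 2) :
    0 ≤ ∏ e ∈ D, (1 + t * y e) ∧
      t * ∑ e ∈ D, y e - 2 * t ^ 2 * D.card ≤ ∏ e ∈ D, (1 + t * y e) := by
  have h1 : ∀ e, -(1 / 2) ≤ t * y e := fun e => by nlinarith [(hy e).1]
  refine ⟨Finset.prod_nonneg fun e _ => by linarith [h1 e], ?_⟩
  have h2 : Real.exp (∑ e ∈ D, (t * y e - 2 * (t * y e) ^ 2)) ≤ ∏ e ∈ D, (1 + t * y e) := by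
    rw [Real.exp_sum]
    exact Finset.prod_le_prod (fun e _ => (Real.exp_pos _).le) fun e _ => aknb_exp (h1 e)
  have h3 : ∑ e ∈ D, (t * y e - 2 * t ^ 2) ≤ ∑ e ∈ D, (t * y e - 2 * (t * y e) ^ 2) :=
    Finset.sum_le_sum fun e _ => by
      have h4 : y e ^ 2 ≤ 1 := by nlinarith [(hy e).1, (hy e).2]
      nlinarith [mul_le_mul_of_nonneg_left h4 (sq_nonneg t)]
  rw [Finset.sum_sub_distrib, ← Finset.mul_sum, Finset.sum_const, nsmul_eq_mul] at h3
  linarith [Real.add_one_le_exp (∑ e ∈ D, (t * y e - 2 * (t * y e) ^ 2))]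

open Classical in
theorem aknb_card (hnb : Nb nb Δ) {F : Finset (Sym2 V)} (hF : ∀ e ∈ F, IsE nb e) (K : Finset V) :
    (F.filter (Touch (↑K : Set V))).card ≤ K.card * Δ := by
  have h1 : F.filter (Touch (↑K : Set V)) ⊆
      K.biUnion fun a => (nb a).image fun b => s(a, b) := by
    intro e he
    obtain ⟨he1, he2⟩ := Finset.mem_filter.1 he
    obtain ⟨a, b, hab, rfl⟩ := hF e he1
    rcases touch_mk.1 he2 with h | h
    · exact Finset.mem_biUnion.2 ⟨a, h, Finset.mem_image.2 ⟨b, hab, rfl⟩⟩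
    · exact Finset.mem_biUnion.2 ⟨b, h, Finset.mem_image.2 ⟨a, hnb.symm a b hab, Sym2.eq_swap⟩⟩
  exact (Finset.card_le_card h1).trans (Finset.card_biUnion_le_card_mul _ _ _ fun a _ =>
    Finset.card_image_le.trans (hnb.card a))

theorem akn_mart (hnb : Nb nb Δ) {p s : ℝ} (hp0 : 0 ≤ p) (hp1 : p ≤ 1) {n : ℕ} (hs : 2 ≤ s)
    (hn : s ^ 2 ≤ n) (F : Finset (Sym2 V)) (hF : ∀ e ∈ F, IsE nb e) (x : V) :
    Ex (fun _ => p) F (fun ω => ag n (clu ω x).card *
      ∑ e ∈ F, ind (Touch (↑(clu ω x) : Set V) e) * (p - ind (e ∈ ω))) ≤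
        (2 * (Δ : ℝ) + 1) / s := by
  classical
  have hs0 : 0 < s := by linarith
  have hn0 : (0 : ℝ) < n := lt_of_lt_of_le (by positivity) hn
  have hw : Wt (fun _ : Sym2 V => p) := fun _ => ⟨hp0, hp1⟩
  have hY := aknb_mart p (1 / s) F x
  have key : ∀ ω ⊆ F, ag n (clu ω x).card *
      ∑ e ∈ F, ind (Touch (↑(clu ω x) : Set V) e) * (p - ind (e ∈ ω)) ≤
      1 / s * ∏ e ∈ F.filter (Touch (↑(clu ω x) : Set V)), (1 + 1 / s * (p - ind (e ∈ ω))) +
        2 * Δ / s := by
    intro ω _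
    have h1 : ∑ e ∈ F, ind (Touch (↑(clu ω x) : Set V) e) * (p - ind (e ∈ ω)) =
        ∑ e ∈ F.filter (Touch (↑(clu ω x) : Set V)), (p - ind (e ∈ ω)) := by
      rw [Finset.sum_filter]
      refine Finset.sum_congr rfl fun e _ => ?_
      split_ifs with h
      · rw [ind_pos h, one_mul]
      · rw [ind_neg h, zero_mul]
    obtain ⟨h2, h3⟩ := aknb_low (F.filter (Touch (↑(clu ω x) : Set V)))
      (fun e => p - ind (e ∈ ω))
      (fun e => ⟨by linarith [ind_le_one (e ∈ ω)], by linarith [ind_nonneg (e ∈ ω)]⟩)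
      (t := 1 / s) (by positivity) (one_div_le_one_div_of_le two_pos hs)
    have h4 : ((F.filter (Touch (↑(clu ω x) : Set V))).card : ℝ) ≤ (clu ω x).card * Δ := by
      exact_mod_cast aknb_card hnb hF (clu ω x)
    rw [h1]
    generalize ∑ e ∈ F.filter (Touch (↑(clu ω x) : Set V)), (p - ind (e ∈ ω)) = h at h3 ⊢
    generalize ∏ e ∈ F.filter (Touch (↑(clu ω x) : Set V)), (1 + 1 / s * (p - ind (e ∈ ω))) = Y
      at h2 h3 ⊢
    generalize ((F.filter (Touch (↑(clu ω x) : Set V))).card : ℝ) = d at h3 h4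
    generalize (clu ω x).card = k at h4 ⊢
    have hm : (0 : ℝ) < (max k n : ℕ) := hn0.trans_le (Nat.cast_le.2 (le_max_right _ _))
    have ha0 : 0 ≤ ag n k := by
      unfold ag
      positivity
    have ha1 : ag n k * s ≤ 1 / s := by
      unfold ag
      rw [one_div_mul_eq_div, div_le_div_iff₀ hm hs0, one_mul, ← sq]
      exact hn.trans (Nat.cast_le.2 (le_max_right _ _))
    have ha2 : ag n k * k ≤ 1 := by
      unfold ag
      rw [one_div_mul_eq_div, div_le_one hm]
      exact Nat.cast_le.2 (le_max_left _ _)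
    have h5 : h ≤ s * Y + 2 * d / s := by
      have h6 := mul_le_mul_of_nonneg_left h3 hs0.le
      have h7 : s * (1 / s * h - 2 * (1 / s) ^ 2 * d) = h - 2 * d / s := by
        field_simp
      linarith
    have h8 : ag n k * d ≤ Δ := by
      have h9 := mul_le_mul_of_nonneg_left h4 ha0
      have h10 := mul_le_mul_of_nonneg_right ha2 (Nat.cast_nonneg Δ : (0 : ℝ) ≤ _)
      linarith
    calc ag n k * h ≤ ag n k * (s * Y + 2 * d / s) := mul_le_mul_of_nonneg_left h5 ha0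
      _ = ag n k * s * Y + 2 * (ag n k * d) / s := by ring
      _ ≤ 1 / s * Y + 2 * Δ / s := by gcongr
  refine (Ex_mono hw key).trans (le_of_eq ?_)
  rw [Ex_add, Ex_mul_left, Ex_const, hY]
  ring

end Vale.Agent.P151G
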