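import Vale.Agent.P151G.Edge

/-! The two cluster bound at a distance. -/

namespace Vale.Agent.P151G

open Vale.Agent.P151

variable {V Γ : Type*} [DecidableEq V] [Group Γ] [MulAction Γ V]

theorem surg_pt {n : ℕ} {x y : V} (z : V) {ω : Finset (Sym2 V)} (h : Tw n x y ω) :
    Tw n z y ω ∨ Tw n x z (insert s(z, y) ω) := by
  obtain ⟨h1, h2, h3⟩ := h
  by_cases hz : Big n z ω ∧ ¬ Conn ω z y
  · exact Or.inl ⟨hz.1, h2, hz.2⟩
  have hs : ω ⊆ insert s(z, y) ω := Finset.subset_insert _ _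
  refine Or.inr ⟨h1.mono hs,
    (h2.mono hs).conn (Conn.single (Finset.mem_insert_self _ _)).symm, fun hc => ?_⟩
  have k : Conn ω x z ∨ Conn ω x z ∨ Conn ω x y := by
    refine hc.closed (P := fun v => Conn ω x v ∨ Conn ω x z ∨ Conn ω x y)
      (Or.inl (Conn.refl _ _)) fun a b ha hab => ?_
    rcases ha with ha | ha
    · rcases Finset.mem_insert.1 hab with e | e
      · rcases Sym2.eq_iff.1 e with ⟨rfl, -⟩ | ⟨rfl, -⟩
        · exact Or.inr (Or.inl ha)
        · exact Or.inr (Or.inr ha)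
      · exact Or.inl (ha.tail e)
    · exact Or.inr ha
  have k' : Conn ω x z := by
    rcases k with k | k | k
    · exact k
    · exact k
    · exact absurd k h3
  exact hz ⟨h1.conn k', fun h4 => h3 (k'.trans h4)⟩

theorem surg_ins {ι : Type*} [DecidableEq ι] {p : ℝ} (hp0 : 0 ≤ p) (hp1 : p ≤ 1) {F : Finset ι}
    {e : ι} (he : e ∈ F) {f : Finset ι → ℝ} (hf : ∀ ω, 0 ≤ f ω) :
    p * Ex (fun _ => p) F (fun ω => f (insert e ω)) ≤ Ex (fun _ => p) F f := by
  have hw : Wt (fun _ : ι => p) := fun _ => ⟨hp0, hp1⟩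
  rw [← Finset.insert_erase he, Ex_insert (Finset.notMem_erase e F),
    Ex_insert (Finset.notMem_erase e F)]
  simp only [Finset.insert_idem]
  have h1 : 0 ≤ Ex (fun _ => p) (F.erase e) f := Ex_nonneg hw fun ω _ => hf ω
  have h2 := mul_nonneg (sub_nonneg.2 hp1) h1
  generalize Ex (fun _ => p) (F.erase e) (fun ω => f (insert e ω)) = a
  nlinarith

theorem surg {nb : V → Finset V} {Δ n : ℕ} (hnb : Nb nb Δ) {lo p T : ℝ} (hlo : 0 < lo)
    (hp0 : lo ≤ p) (hp1 : p ≤ 1) (hT : 0 ≤ T)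
    (h : ∀ a, ∀ b ∈ nb a, Ult nb (fun F => Ex (fun _ => p) F (fun ω => ind (Tw n a b ω)) ≤ T))
    (ρ : ℕ) {x y : V} (hy : y ∈ ball nb ρ x) :
    Ult nb (fun F => Ex (fun _ => p) F (fun ω => ind (Tw n x y ω)) ≤ ρ * (1 / lo) ^ ρ * T) := by
  have hp : 0 < p := hlo.trans_le hp0
  have hw : Wt (fun _ : Sym2 V => p) := fun _ => ⟨hp.le, hp1⟩
  have hq : 1 ≤ 1 / lo := by
    rw [le_div_iff₀ hlo]
    linarith
  have hq' : 1 ≤ p * (1 / lo) := by
    rw [mul_one_div, le_div_iff₀ hlo]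
    linarith
  generalize 1 / lo = q at hq hq'
  induction ρ generalizing y with
  | zero =>
    rw [mem_ball_zero.1 hy]
    refine Ult.of_forall fun F _ => Ex_le hw fun ω _ => ?_
    rw [ind_neg fun h1 => h1.2.2 (Conn.refl _ _)]
    simp
  | succ ρ ih =>
    have a1 : 1 ≤ q ^ ρ := one_le_pow₀ hq
    have a0 : (0 : ℝ) ≤ ρ := Nat.cast_nonneg _
    have a2 : 0 ≤ ρ * q ^ ρ * T := by positivity
    have a3 : T ≤ q ^ ρ * q * T := le_mul_of_one_le_left hT (one_le_mul_of_one_le_of_one_le a1 hq)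
    have a4 : ((ρ + 1 : ℕ) : ℝ) * q ^ (ρ + 1) * T = q * (ρ * q ^ ρ * T) + q ^ ρ * q * T := by
      push_cast
      ring
    rw [a4]
    rcases mem_ball_succ.1 hy with h1 | ⟨z, hz, h1⟩
    · refine (ih h1).mono fun F _ hF => hF.trans ?_
      have := le_mul_of_one_le_left a2 hq
      linarith
    · have b1 : ∀ e ∈ ({s(z, y)} : Finset (Sym2 V)), IsE nb e := fun e he =>
        ⟨z, y, h1, Finset.mem_singleton.1 he⟩
      refine (((ih hz).and (h z y h1)).and (Ult.sup b1)).mono fun F _ hF => ?_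
      obtain ⟨⟨c1, c2⟩, c3⟩ := hF
      have c4 := surg_ins hp.le hp1 (c3 (Finset.mem_singleton_self _))
        (f := fun ω => ind (Tw n x z ω)) fun ω => ind_nonneg _
      have c5 : Ex (fun _ => p) F (fun ω => ind (Tw n x y ω)) ≤
          Ex (fun _ => p) F (fun ω => ind (Tw n z y ω) + ind (Tw n x z (insert s(z, y) ω))) := by
        refine Ex_mono hw fun ω _ => ?_
        by_cases d : Tw n x y ω
        · rw [ind_pos d]
          rcases surg_pt z d with d1 | d1
          · rw [ind_pos d1]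
            linarith [ind_nonneg (Tw n x z (insert s(z, y) ω))]
          · rw [ind_pos d1]
            linarith [ind_nonneg (Tw n z y ω)]
        · rw [ind_neg d]
          exact add_nonneg (ind_nonneg _) (ind_nonneg _)
      rw [Ex_add] at c5
      have c6 : 0 ≤ Ex (fun _ => p) F (fun ω => ind (Tw n x z (insert s(z, y) ω))) :=
        Ex_ind_nonneg hw _
      have c7 := le_mul_of_one_le_left c6 hq'
      have c8 := mul_le_mul_of_nonneg_left (c4.trans c1) (zero_le_one.trans hq)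
      nlinarith

theorem tw_bound (S : Su V Γ) {lo p s : ℝ} (hlo : 0 < lo) (hp0 : lo ≤ p) (hp1 : p ≤ 1) {n : ℕ}
    (hs : 2 ≤ s) (hn : s ^ 2 ≤ n) (ρ : ℕ) {x y : V} (hy : y ∈ ball S.nb ρ x) :
    Ult S.nb (fun F => Ex (fun _ => p) F (fun ω => ind (Tw n x y ω)) ≤
      ρ * (1 / lo) ^ ρ * (S.C₁ / (lo * s))) := by
  have hp : 0 < p := hlo.trans_le hp0
  have hs0 : 0 < s := by linarith
  have hC := S.C₁_pos
  refine surg S.hnb hlo hp0 hp1 (by positivity) (fun a b hb => ?_) ρ hy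
  refine (edge S hp hp1 hs hn hb).mono fun F _ hF => hF.trans ?_
  exact div_le_div_of_nonneg_left hC.le (by positivity) (mul_le_mul_of_nonneg_right hp0 hs0.le)

end Vale.Agent.P151G
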