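import Vale.Agent.P151G.Seed
import Vale.Agent.P151G.Surg

/-! The first scale. -/

namespace Vale.Agent.P151G

open Vale.Agent.P151

variable {V Γ : Type*} [DecidableEq V] [Group Γ] [MulAction Γ V]

omit [Group Γ] [MulAction Γ V] in
theorem base_pt (nb : V → Finset V) (m n : ℕ) (x y : V) (ω : Finset (Sym2 V)) :
    ind (BigU nb m n x ω) + ind (BigU nb m n y ω) - 1 -
      ∑ u ∈ ball nb m x, ∑ v ∈ ball nb m y, ind (Tw n u v ω) ≤ ind (Link nb m x y ω) := by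
  have h0 : ∀ u, 0 ≤ ∑ v ∈ ball nb m y, ind (Tw n u v ω) := fun u =>
    Finset.sum_nonneg fun _ _ => ind_nonneg _
  have h1 : 0 ≤ ∑ u ∈ ball nb m x, ∑ v ∈ ball nb m y, ind (Tw n u v ω) :=
    Finset.sum_nonneg fun u _ => h0 u
  have h2 := ind_le_one (BigU nb m n x ω)
  have h3 := ind_le_one (BigU nb m n y ω)
  have h4 := ind_nonneg (Link nb m x y ω)
  by_cases hx : BigU nb m n x ω
  · by_cases hy : BigU nb m n y ω
    · obtain ⟨u, hu, hu'⟩ := hx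
      obtain ⟨v, hv, hv'⟩ := hy
      by_cases hc : Conn ω u v
      · rw [ind_pos (P := Link nb m x y ω) ⟨u, hu, v, hv, hc⟩]
        linarith
      · have h5 := Finset.single_le_sum (f := fun v => ind (Tw n u v ω))
          (fun _ _ => ind_nonneg _) hv
        have h6 := Finset.single_le_sum (fun u _ => h0 u) hu
        simp only [ind_pos (P := Tw n u v ω) ⟨hu', hv', hc⟩] at h5
        linarith
    · rw [ind_neg hy]
      linarith
  · rw [ind_neg hx]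
    linarith

omit [Group Γ] [MulAction Γ V] in
theorem base_link {nb : V → Finset V} {Δ m n : ℕ} (hnb : Nb nb Δ) {w : Sym2 V → ℝ} (hw : Wt w)
    {F : Finset (Sym2 V)} {x y : V} {δ T : ℝ} (hT : 0 ≤ T)
    (hδ : (((Δ : ℝ) + 1) ^ m) ^ 2 * T ≤ δ)
    (hx : 1 - δ ≤ Ex w F fun ω => ind (BigU nb m n x ω))
    (hy : 1 - δ ≤ Ex w F fun ω => ind (BigU nb m n y ω))
    (h : ∀ u ∈ ball nb m x, ∀ v ∈ ball nb m y, Ex w F (fun ω => ind (Tw n u v ω)) ≤ T) :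
    1 - 3 * δ ≤ Ex w F fun ω => ind (Link nb m x y ω) := by
  refine le_trans ?_ (Ex_mono hw fun ω _ => base_pt nb m n x y ω)
  rw [Ex_sub, Ex_sub, Ex_add, Ex_const, Ex_sum]
  have hc : ∀ z, ((ball nb m z).card : ℝ) ≤ ((Δ : ℝ) + 1) ^ m := fun z => by
    exact_mod_cast card_ball hnb
  have h1 : ∑ u ∈ ball nb m x, Ex w F (fun ω => ∑ v ∈ ball nb m y, ind (Tw n u v ω)) ≤
      ∑ _u ∈ ball nb m x, ((Δ : ℝ) + 1) ^ m * T := Finset.sum_le_sum fun u hu => by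
    rw [Ex_sum]
    refine (Finset.sum_le_sum (h u hu)).trans ?_
    rw [Finset.sum_const, nsmul_eq_mul]
    exact mul_le_mul_of_nonneg_right (hc y) hT
  rw [Finset.sum_const, nsmul_eq_mul] at h1
  have h2 := mul_le_mul_of_nonneg_right (hc x) (by positivity : 0 ≤ ((Δ : ℝ) + 1) ^ m * T)
  linarith

omit [Group Γ] [MulAction Γ V] in
theorem base_fin {w : Sym2 V → ℝ} (hw : Wt w) {F : Finset (Sym2 V)} {A : Finset V} {c q t : ℝ}
    {P : V → Finset (Sym2 V) → Prop} (hc : 0 ≤ c) (hs : ∑ _y ∈ A, c = 1) (ht : 2 ≤ t)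
    (h : ∀ y ∈ A, 1 - 3 * (q / 6) ≤ Ex w F fun ω => ind (P y ω)) :
    1 - q ≤ Ex w F fun ω => ind (1 / t ≤ ∑ y ∈ A, c * ind (P y ω)) := by
  have h4 : 1 - 3 * (q / 6) ≤ Ex w F fun ω => ∑ y ∈ A, c * ind (P y ω) := by
    have e : 1 - 3 * (q / 6) = ∑ _y ∈ A, c * (1 - 3 * (q / 6)) := by
      rw [← Finset.sum_mul, hs, one_mul]
    rw [Ex_sum, e]
    refine Finset.sum_le_sum fun y hy => ?_
    rw [Ex_mul_left]
    exact mul_le_mul_of_nonneg_left (h y hy) hc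
  have h5 := Ex_markov hw (b := 1 / 2) one_half_pos (fun ω _ => le_of_le_of_eq
    (Finset.sum_le_sum fun y _ => mul_le_of_le_one_right hc (ind_le_one _)) hs) h4
  have h6 : 1 / t ≤ 1 - 1 / 2 := (one_div_le_one_div_of_le two_pos ht).trans (by norm_num)
  refine le_trans ?_ (Ex_mono hw fun ω _ =>
    ind_mono (P := ¬ ∑ y ∈ A, c * ind (P y ω) < 1 - 1 / 2) fun h => h6.trans (not_lt.1 h))
  rw [Ex_ind_not]
  linarith

theorem seedU (S : Su V Γ) {p θ δ : ℝ} (hp0 : 0 < p) (hp1 : p ≤ 1) (hθ : 0 < θ) (hδ : 0 < δ)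
    (h : Far S.nb S.o (fun _ => p) θ) : ∃ m, ∀ N, ∃ p', p / 2 ≤ p' ∧ p' < p ∧ ∀ y,
      Lb (fun _ => p') (IsE S.nb) (fun ω => ind (BigU S.nb m N y ω)) (1 - δ) := by
  obtain ⟨r, hr⟩ := seed S hp0.le hp1 hθ (half_pos hδ) h
  refine ⟨S.D₀ + r, fun N => ?_⟩
  obtain ⟨F, hF, hE⟩ := hr N
  obtain ⟨τ, hτ, hτ'⟩ : ∃ τ : ℝ, 0 < τ ∧ F.card * τ ≤ δ / 2 := by
    refine ⟨δ / 2 / (F.card + 1), by positivity, ?_⟩
    rw [← mul_div_assoc, div_le_iff₀ (by positivity)]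
    linarith
  have h1 : max (p / 2) (p - τ) < p := max_lt (by linarith) (by linarith)
  have h2 := le_max_left (p / 2) (p - τ)
  have h3 := le_max_right (p / 2) (p - τ)
  refine ⟨max (p / 2) (p - τ), h2, h1, fun y => ?_⟩
  have hw : Wt fun _ : Sym2 V => max (p / 2) (p - τ) := fun _ => ⟨by linarith, by linarith⟩
  have h4 := Ex_lip (w := fun _ => p) (F := F) (f := fun ω => ind (BigU S.nb r N S.o ω)) (t := τ)
    (fun _ => ⟨hp0.le, hp1⟩) hw (fun _ _ => abs_le.2 ⟨by linarith, by linarith⟩)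
    fun ω => ⟨ind_nonneg _, ind_le_one _⟩
  obtain ⟨γ, hγ⟩ := S.near y
  refine ⟨sm γ F, S.isE_sm γ hF, ?_⟩
  rw [Ex_sm]
  refine le_trans (by linarith) (Ex_mono (f := fun ω => ind (BigU S.nb r N S.o ω)) hw
    fun ω _ => ind_mono fun h5 => ?_)
  obtain ⟨u, hu, h6⟩ := (S.bigU_sm γ).2 h5
  exact ⟨u, ball_trans (ball_symm S.hnb hγ) hu, h6⟩

theorem base (S : Su V Γ) {p θ q : ℝ} (hp0 : 0 < p) (hp1 : p ≤ 1) (hθ : 0 < θ) (hq : 0 < q)
    (h : Far S.nb S.o (fun _ => p) θ) : ∃ m, ∀ t : ℕ, 2 ≤ t → ∃ p', p / 2 ≤ p' ∧ p' < p ∧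
      Hyp S.nb p' m t q := by
  have hδ : 0 < q / 6 := by positivity
  obtain ⟨m, hm⟩ := seedU S hp0 hp1 hθ hδ h
  refine ⟨m, fun t ht => ?_⟩
  have ht' : (2 : ℝ) ≤ t := by exact_mod_cast ht
  obtain ⟨R, hR⟩ := S.large ((t : ℝ) ^ 30)
  have hC := S.C₁_pos
  obtain ⟨s, hs, hs'⟩ : ∃ s : ℝ, 2 ≤ s ∧ (((S.Δ : ℝ) + 1) ^ m) ^ 2 *
      ((m + R + m : ℕ) * (1 / (p / 2)) ^ (m + R + m) * (S.C₁ / (p / 2 * s))) ≤ q / 6 := by
    obtain ⟨K, hK0, hK⟩ : ∃ K : ℝ, 0 ≤ K ∧ K = (((S.Δ : ℝ) + 1) ^ m) ^ 2 *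
      ((m + R + m : ℕ) * (1 / (p / 2)) ^ (m + R + m) * (S.C₁ / (p / 2))) := ⟨_, by positivity, rfl⟩
    have h1 : 0 ≤ K / (q / 6) := by positivity
    refine ⟨2 + K / (q / 6), by linarith, ?_⟩
    rw [← div_div, ← mul_div_assoc, ← mul_div_assoc, ← hK, div_le_iff₀ (by positivity), mul_add,
      mul_div_cancel₀ _ hδ.ne']
    linarith
  obtain ⟨p', h1, h2, h3⟩ := hm ⌈s ^ 2⌉₊
  refine ⟨p', h1, h2, fun x => ?_⟩
  have hw : Wt fun _ : Sym2 V => p' := fun _ => ⟨by linarith, by linarith⟩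
  have h30 : (0 : ℝ) < (t : ℝ) ^ 30 := by positivity
  have hA : (0 : ℝ) < (ball S.nb R x).card := h30.trans_le (hR x)
  have hs1 : ∑ _y ∈ ball S.nb R x, 1 / ((ball S.nb R x).card : ℝ) = 1 := by
    rw [Finset.sum_const, nsmul_eq_mul, mul_one_div_cancel hA.ne']
  refine ⟨ball S.nb R x, fun _ => 1 / (ball S.nb R x).card, fun _ =>
    ⟨by positivity, one_div_le_one_div_of_le h30 (hR x)⟩, hs1, Ult.to_Lb ?_⟩
  have U1 := Ult.all (ball S.nb R x) fun y _ =>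
    Ult.of_Lb hw (mono_ind (P := BigU S.nb m ⌈s ^ 2⌉₊ y) fun _ _ hab h => h.mono hab) (h3 y)
  have U2 := Ult.all (ball S.nb R x) fun y hy => Ult.all (ball S.nb m x) fun u hu =>
    Ult.all (ball S.nb m y) fun v hv =>
      tw_bound S (half_pos hp0) h1 (h2.le.trans hp1) hs (Nat.le_ceil _) (m + R + m)
        (ball_trans (ball_trans (ball_symm S.hnb hu) hy) hv)
  refine (U1.and U2).mono fun F _ hF => ?_
  exact base_fin hw (by positivity) hs1 ht' fun y hy => base_link S.hnb hw (by positivity) hs'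
    (hF.1 x mem_ball_self) (hF.1 y hy) (hF.2 y hy)

end Vale.Agent.P151G
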