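import Vale.Agent.P151G.Defs

/-! The choice of the parameters. -/

namespace Vale.Agent.P151G

open Vale.Agent.P151

theorem par_exp {q : ℝ} (h0 : 0 < q) (h1 : q ≤ 1 / 2) : Real.exp (-(2 * q)) ≤ 1 - q := by
  have h2 := Real.add_one_le_exp (2 * q)
  rw [Real.exp_neg, inv_le_comm₀ (Real.exp_pos _) (by linarith)]
  refine le_trans ?_ h2
  rw [inv_le_iff_one_le_mul₀ (by linarith)]
  nlinarith

theorem par_sq {r x : ℝ} (h0 : 0 ≤ r) (h : r + 1 ≤ x) : r ≤ x ^ 2 := by nlinarith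

theorem par {lo c : ℝ} (hlo : 0 < lo) (hlo1 : lo < 1) (hc : 0 < c) (r₀ : ℕ) :
    ∃ q : ℝ, 0 < q ∧ q ≤ 1 / 2 ∧ ∀ (m : ℕ) (M : ℝ), ∃ t₀ : ℕ, ∀ t : ℕ, t₀ ≤ t → ∃ ρ k : ℕ,
      (1 / lo) ^ (ρ + 2 * m) ≤ t ∧ ((k : ℝ) + 1) * (ρ + 2 * m + 1) * M ≤ t ∧
      1 / (t : ℝ) ≤ (1 - q) ^ (k + 1) ∧ r₀ ≤ k * ρ ∧
      (t : ℝ) ^ 90 ≤ Real.exp (c * Real.sqrt (k * ρ : ℕ)) := by
  obtain ⟨L, hL⟩ : ∃ L, L = Real.log (1 / lo) := ⟨_, rfl⟩
  have hL0 : 0 < L := hL ▸ Real.log_pos (one_lt_one_div hlo hlo1)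
  have hL1 : Real.exp L = 1 / lo := by rw [hL, Real.exp_log (by positivity)]
  obtain ⟨q, hq0, hq1, hq2⟩ : ∃ q : ℝ, 0 < q ∧ q ≤ 1 / 2 ∧ q ≤ c ^ 2 / (64800 * L) :=
    ⟨min (1 / 2) (c ^ 2 / (64800 * L)), lt_min (by norm_num) (by positivity), min_le_left _ _,
      min_le_right _ _⟩
  refine ⟨q, hq0, hq1, fun m M => ?_⟩
  obtain ⟨A, hA⟩ : ∃ A, A = 1 / (2 * q) * (1 / L + 1) * |M| := ⟨_, rfl⟩
  have hA0 : 0 ≤ A := by rw [hA]; positivity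
  have hB0 : 0 ≤ 2 * L * (1 + 2 * m) := by positivity
  have hC0 : 0 ≤ c * (r₀ + 1) / 90 := by positivity
  refine ⟨⌈Real.exp (4 + 6 * A + 2 * L * (1 + 2 * m) + c * (r₀ + 1) / 90)⌉₊, fun t ht => ?_⟩
  have ht1 := Nat.ceil_le.1 ht
  have ht0 : (0 : ℝ) < t := (Real.exp_pos _).trans_le ht1
  obtain ⟨l, hl⟩ : ∃ l, l = Real.log t := ⟨_, rfl⟩
  have hl1 : 4 + 6 * A + 2 * L * (1 + 2 * m) + c * (r₀ + 1) / 90 ≤ l :=
    hl ▸ (Real.le_log_iff_exp_le ht0).2 ht1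
  have hl2 : Real.exp l = t := by rw [hl, Real.exp_log ht0]
  have hl0 : 0 < l := by linarith
  have a1 : (⌊l / (2 * q)⌋₊ : ℝ) ≤ l / (2 * q) := Nat.floor_le (by positivity)
  have a2 := Nat.lt_floor_add_one (l / (2 * q))
  have b1 : (⌊l / L⌋₊ : ℝ) ≤ l / L := Nat.floor_le (by positivity)
  have b2 := Nat.lt_floor_add_one (l / L)
  have a3 : 2 ≤ l / (4 * q) := by
    rw [le_div_iff₀ (by positivity)]
    linarith
  have a4 : l / (2 * q) = 2 * (l / (4 * q)) := by field_simp; ring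
  have b3 : 1 + 2 * (m : ℝ) ≤ l / (2 * L) := by
    rw [le_div_iff₀ (by positivity)]
    linarith
  have b4 : l / L = 2 * (l / (2 * L)) := by field_simp
  have hm : (0 : ℝ) ≤ m := Nat.cast_nonneg m
  obtain ⟨k, hk⟩ : ∃ k, ⌊l / (2 * q)⌋₊ = k + 1 :=
    Nat.exists_eq_succ_of_ne_zero (Nat.floor_pos.2 (by linarith)).ne'
  obtain ⟨ρ, hρ⟩ : ∃ ρ, ⌊l / L⌋₊ = ρ + 2 * m := by
    have h : 2 * m ≤ ⌊l / L⌋₊ := Nat.le_floor (by push_cast; linarith)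
    exact ⟨_, (Nat.sub_add_cancel h).symm⟩
  rw [hk] at a1 a2
  rw [hρ] at b1 b2
  push_cast at a1 a2 b1 b2
  have hk0 : (0 : ℝ) ≤ k := Nat.cast_nonneg k
  have hρ0 : (0 : ℝ) ≤ ρ := Nat.cast_nonneg ρ
  have key : (90 * l / c) ^ 2 ≤ ((k * ρ : ℕ) : ℝ) := by
    have h1 : l / (4 * q) * (l / (2 * L)) ≤ k * ρ :=
      mul_le_mul (by linarith) (by linarith) (by positivity) hk0
    push_cast
    refine le_trans ?_ h1
    rw [div_mul_div_comm, div_pow, div_le_div_iff₀ (by positivity) (by positivity)]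
    rw [le_div_iff₀ (by positivity)] at hq2
    nlinarith only [mul_le_mul_of_nonneg_left hq2 (sq_nonneg l)]
  refine ⟨ρ, k, ?_, ?_, ?_, ?_, ?_⟩
  · rw [← hL1, ← Real.exp_nat_mul, ← hl2, Real.exp_le_exp, ← le_div_iff₀ hL0]
    push_cast
    exact b1
  · have h1 : (ρ : ℝ) + 2 * m + 1 ≤ l * (1 / L + 1) := by
      rw [mul_add, mul_one_div]
      linarith
    have h2 : ((k : ℝ) + 1) * (ρ + 2 * m + 1) * M ≤ l / (2 * q) * (l * (1 / L + 1)) * |M| :=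
      (mul_le_mul_of_nonneg_left (le_abs_self M) (by positivity)).trans
        (mul_le_mul_of_nonneg_right (mul_le_mul a1 h1 (by positivity) (by positivity))
          (abs_nonneg M))
    have h3 : l / (2 * q) * (l * (1 / L + 1)) * |M| = A * l ^ 2 := by
      rw [hA]
      ring
    have h4 := Real.pow_div_factorial_le_exp l hl0.le 3
    rw [hl2] at h4
    norm_num [Nat.factorial] at h4
    have h5 : 6 * A * l ^ 2 ≤ l * l ^ 2 := mul_le_mul_of_nonneg_right (by linarith) (sq_nonneg l)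
    have h6 : l * l ^ 2 = l ^ 3 := by ring
    linarith only [h2, h3, h4, h5, h6]
  · refine le_trans ?_ (pow_le_pow_left₀ (Real.exp_pos _).le (par_exp hq0 hq1) _)
    rw [← Real.exp_nat_mul, ← hl2, one_div, ← Real.exp_neg, Real.exp_le_exp]
    rw [le_div_iff₀ (by positivity)] at a1
    push_cast
    linarith
  · have h1 : (r₀ : ℝ) + 1 ≤ 90 * l / c := by
      rw [le_div_iff₀ hc]
      linarith
    exact_mod_cast ((par_sq (Nat.cast_nonneg r₀) h1).trans key : (r₀ : ℝ) ≤ ((k * ρ : ℕ) : ℝ))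
  · rw [← hl2, ← Real.exp_nat_mul, Real.exp_le_exp]
    have h1 := Real.le_sqrt_of_sq_le key
    rw [div_le_iff₀ hc] at h1
    push_cast at h1 ⊢
    linarith

end Vale.Agent.P151G
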