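import Vale.Agent.P151G.Step
import Vale.Agent.P151G.Par
import Vale.Agent.P151G.Base

/-! Percolation persists below the parameter. -/

namespace Vale.Agent.P151G

open Vale.Agent.P151

variable {V Γ : Type*} [DecidableEq V] [Group Γ] [MulAction Γ V]

theorem far_of_big {nb : V → Finset V} {m : ℕ} {o : V} {p : ℝ} (hp0 : 0 < p) (hp1 : p ≤ 1)
    (h : ∀ N, Lb (fun _ => p) (IsE nb) (fun ω => ind (BigU nb m N o ω)) (1 / 2)) :
    ∃ c, 0 < c ∧ Far nb o (fun _ => p) c := by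
  have hw : Wt (fun _ : Sym2 V => p) := fun _ => ⟨hp0.le, hp1⟩
  refine ⟨p ^ (inE nb (ball nb m o)).card * (1 / 2), by positivity, fun R => ?_⟩
  obtain ⟨F, hF, h1⟩ := h ((ball nb R o).card + 1)
  have hB : Monotone fun ω => ind (BigU nb m ((ball nb R o).card + 1) o ω) :=
    mono_ind fun _ _ hab h => h.mono hab
  have hE : Monotone fun ω : Finset (Sym2 V) => ind (inE nb (ball nb m o) ⊆ ω) :=
    mono_ind fun _ _ hab h => h.trans hab
  refine ⟨F ∪ inE nb (ball nb m o), fun e he =>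
    (Finset.mem_union.1 he).elim (hF e) isE_of_mem_inE, ?_⟩
  have h2 := h1.trans (Ex_le_of_subset hw
    (Finset.subset_union_left (s₂ := inE nb (ball nb m o))) hB)
  have h3 := Ex_all (Finset.subset_union_right (s₁ := F) (s₂ := inE nb (ball nb m o)))
    (fun _ => p) (fun _ => 1)
  simp only [mul_one, Ex_const, Finset.prod_const] at h3
  refine le_trans ?_ ((Ex_fkg hw hE hB).trans (Ex_mono hw fun ω _ => ?_))
  · rw [h3]
    exact mul_le_mul_of_nonneg_left h2 (by positivity)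
  · rw [← ind_and]
    refine ind_mono fun ⟨h4, u, hu, h5⟩ => exit_of_big (h5.conn (conn_of_ball h4 hu).symm)

theorem core_mono {nb : V → Finset V} {p ε ε' : ℝ} {m t : ℕ} (h : Hyp nb p m t ε) (hε : ε ≤ ε') :
    Hyp nb p m t ε' := fun x =>
  let ⟨A, ν, h1, h2, h3⟩ := h x; ⟨A, ν, h1, h2, h3.le (by linarith)⟩

theorem core (S : Su V Γ) {p θ : ℝ} (hp0 : 0 < p) (hp1 : p ≤ 1) (hθ : 0 < θ)
    (h : Far S.nb S.o (fun _ => p) θ) :
    ∃ p' c : ℝ, 0 ≤ p' ∧ p' < p ∧ 0 < c ∧ Far S.nb S.o (fun _ => p') c := by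
  have hlo : 0 < p / 2 := half_pos hp0
  obtain ⟨q, hq0, hq1, hpar⟩ := par hlo (by linarith) S.hc S.r₀
  obtain ⟨m, hm⟩ := base S hp0 hp1 hθ (half_pos hq0) h
  obtain ⟨t₀, ht₀⟩ := hpar m (S.M (p / 2) m)
  obtain ⟨t₁, ht₁⟩ := exists_nat_ge (24 / q)
  obtain ⟨t₂, ht₂⟩ := exists_nat_ge (2 * (((S.Δ : ℝ) + 1) ^ m) ^ 2)
  set t := t₀ + t₁ + t₂ + 2 with ht
  have ht2 : 2 ≤ t := by omega
  obtain ⟨p', hp'0, hp'1, H⟩ := hm t ht2
  have hT : ∀ j : ℕ, t ≤ t ^ 3 ^ j := fun j => Nat.le_self_pow (by positivity) t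
  have hI : ∀ j : ℕ, Hyp S.nb p' m (t ^ 3 ^ j) (q - 12 / ((t ^ 3 ^ j : ℕ) : ℝ)) := by
    intro j
    induction j with
    | zero =>
      rw [pow_zero, pow_one]
      refine core_mono H ?_
      have h1 : (t₁ : ℝ) ≤ t := Nat.cast_le.2 (by omega)
      have h2 : (0 : ℝ) < t := Nat.cast_pos.2 (by omega)
      have h3 : 12 / (t : ℝ) ≤ q / 2 := by
        rw [div_le_iff₀ h2]
        rw [div_le_iff₀ hq0] at ht₁
        nlinarith
      linarith
    | succ j ih =>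
      set T := t ^ 3 ^ j with hTd
      have hT2 : 2 ≤ T := ht2.trans (hT j)
      have hT2' : (2 : ℝ) ≤ T := by exact_mod_cast hT2
      obtain ⟨ρ, k, a1, a2, a3, a4, a5⟩ := ht₀ T (le_trans (by omega) (hT j))
      have e : t ^ 3 ^ (j + 1) = T ^ 3 := by rw [pow_succ, pow_mul]
      rw [e]
      have h0 : 0 ≤ 12 / (T : ℝ) := by positivity
      refine core_mono (step S hlo hp'0 (hp'1.le.trans hp1) m T k ρ hT2 hq0.le (by linarith)
        (by linarith) a1 a2 a3 (fun y => a5.trans (S.gro _ a4 y)) ih) ?_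
      have h1 : 12 / ((T ^ 3 : ℕ) : ℝ) ≤ 6 / T := by
        push_cast
        rw [div_le_div_iff₀ (by positivity) (by positivity)]
        have : (2 : ℝ) ≤ T ^ 2 := by nlinarith
        nlinarith
      have h2 : 12 / (T : ℝ) = 2 * (6 / T) := by ring
      linarith
  have hp' : 0 < p' := hlo.trans_le hp'0
  obtain ⟨c, hc, hF⟩ := far_of_big (nb := S.nb) (m := m) (o := S.o) hp' (hp'1.le.trans hp1)
    fun N => by
      have h1 : 2 * (((S.Δ : ℝ) + 1) ^ m) ^ 2 ≤ ((t ^ 3 ^ N : ℕ) : ℝ) :=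
        ht₂.trans (Nat.cast_le.2 (le_trans (by omega) (hT N)))
      have h2 : N ≤ (t ^ 3 ^ N) ^ 10 :=
        ((Nat.lt_pow_self (by norm_num : 1 < 3)).le.trans
          (Nat.lt_pow_self (by omega : 1 < t)).le).trans (Nat.le_self_pow (by norm_num) _)
      have h3 : 0 ≤ 12 / ((t ^ 3 ^ N : ℕ) : ℝ) := by positivity
      refine ((hyp_big S.hnb hp'.le (hp'1.le.trans hp1) (ht2.trans (hT N)) h1 (hI N) S.o).le
        (by linarith)).fn (fun _ => ⟨hp'.le, hp'1.le.trans hp1⟩) fun ω _ =>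
          ind_mono fun ⟨u, hu, h4⟩ => ⟨u, hu, h4.le h2⟩
  exact ⟨p', c, hp'.le, hp'1, hc, hF⟩

end Vale.Agent.P151G
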