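import Vale.Agent.P151G.Defs

/-! A covariance inequality for increasing events. -/

namespace Vale.Agent.P151G

open Vale.Agent.P151

variable {ι κ : Type*} [DecidableEq ι]

theorem cov_one {w : ι → ℝ} (hw : Wt w) (F : Finset ι) {β : ℝ} {Q G H : Finset ι → Prop}
    (hQ : ∀ a b, a ⊆ b → Q a → Q b) (hG : ∀ a b, a ⊆ b → G a → G b)
    (hH : ∀ a b, a ⊆ b → H a → H b) (hβ : β = Ex w F (fun ω => ind (H ω))) (hβ0 : 0 < β) :
    Ex w F (fun ω => ind (¬ Q ω) * ind (G ω)) ≤ Ex w F (fun ω =>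
      ind (¬ Q ω) * (ind (G ω) * ind (H ω) / β) + ind (Q ω) * (ind (H ω) / β - 1)) := by
  have e1 : ∀ ω, ind (¬ Q ω) * ind (G ω) = ind (Q ω ∨ G ω) - ind (Q ω) := fun ω => by
    by_cases h1 : Q ω <;> by_cases h2 : G ω <;> simp [ind, h1, h2]
  have e2 : ∀ ω, ind (¬ Q ω) * (ind (G ω) * ind (H ω) / β) + ind (Q ω) * (ind (H ω) / β - 1) =
      ind (Q ω ∨ G ω) * ind (H ω) * β⁻¹ - ind (Q ω) := fun ω => by
    by_cases h1 : Q ω <;> by_cases h2 : G ω <;> simp [ind, h1, h2, div_eq_mul_inv]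
  have h := Ex_fkg (F := F) hw (f := fun ω => ind (Q ω ∨ G ω)) (g := fun ω => ind (H ω))
    (fun a b hab => ind_mono fun h => h.imp (hQ a b hab) (hG a b hab))
    fun a b hab => ind_mono (hH a b hab)
  simp only [e1, e2]
  rw [Ex_sub, Ex_sub, Ex_mul_right, ← div_eq_mul_inv]
  exact sub_le_sub_right ((le_div_iff₀ hβ0).2 (hβ ▸ h)) _

theorem cov_trick {w : ι → ℝ} (hw : Wt w) (F : Finset ι) (I : Finset κ) (W β : κ → ℝ)
    (Q : Finset ι → Prop) (G H : κ → Finset ι → Prop) {σ : ℝ} (hσ : 0 < σ)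
    (hW : ∀ l ∈ I, 0 ≤ W l) (hQ : ∀ a b, a ⊆ b → Q a → Q b)
    (hG : ∀ l ∈ I, ∀ a b, a ⊆ b → G l a → G l b) (hH : ∀ l ∈ I, ∀ a b, a ⊆ b → H l a → H l b)
    (hβ : ∀ l ∈ I, β l = Ex w F (fun ω => ind (H l ω))) (hβ0 : ∀ l ∈ I, 0 < β l)
    (hvar : Ex w F (fun ω => (∑ l ∈ I, W l * (ind (H l ω) / β l - 1)) ^ 2) ≤ σ ^ 2) :
    Ex w F (fun ω => ind (¬ Q ω) * ∑ l ∈ I, W l * ind (G l ω)) ≤
      Ex w F (fun ω => ind (¬ Q ω) * ∑ l ∈ I, W l * (ind (G l ω) * ind (H l ω) / β l)) + σ := by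
  have h1 : Ex w F (fun ω => ind (¬ Q ω) * ∑ l ∈ I, W l * ind (G l ω)) ≤ Ex w F (fun ω =>
      ind (¬ Q ω) * ∑ l ∈ I, W l * (ind (G l ω) * ind (H l ω) / β l) +
        ind (Q ω) * ∑ l ∈ I, W l * (ind (H l ω) / β l - 1)) := by
    simp only [Finset.mul_sum, ← Finset.sum_add_distrib, mul_left_comm _ (W _), ← mul_add]
    rw [Ex_sum, Ex_sum]
    refine Finset.sum_le_sum fun l hl => ?_
    rw [Ex_mul_left, Ex_mul_left]
    exact mul_le_mul_of_nonneg_left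
      (cov_one hw F hQ (hG l hl) (hH l hl) (hβ l hl) (hβ0 l hl)) (hW l hl)
  have h2 : Ex w F (fun ω => ind (Q ω) * ∑ l ∈ I, W l * (ind (H l ω) / β l - 1)) ≤ Ex w F (fun ω =>
      σ / 2 + (2 * σ)⁻¹ * (∑ l ∈ I, W l * (ind (H l ω) / β l - 1)) ^ 2) :=
    Ex_mono hw fun ω _ => by
      generalize ∑ l ∈ I, W l * (ind (H l ω) / β l - 1) = U
      have h3 : σ / 2 + (2 * σ)⁻¹ * U ^ 2 - U = (2 * σ)⁻¹ * (U - σ) ^ 2 := by
        field_simp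
        ring
      have h4 : 0 ≤ (2 * σ)⁻¹ * (U - σ) ^ 2 := by positivity
      have h5 : 0 ≤ (2 * σ)⁻¹ * U ^ 2 := by positivity
      by_cases h : Q ω
      · rw [ind_pos h]
        linarith
      · rw [ind_neg h]
        linarith
  rw [Ex_add, Ex_const, Ex_mul_left] at h2
  rw [Ex_add] at h1
  have h3 := mul_le_mul_of_nonneg_left hvar (by positivity : 0 ≤ (2 * σ)⁻¹)
  have h4 : (2 * σ)⁻¹ * σ ^ 2 = σ / 2 := by field_simp
  linarith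

end Vale.Agent.P151G
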