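import Vale.Agent.P151.Seeds
import Vale.Agent.P165.Tree

/-! Definitions for graphs of intermediate growth. -/

namespace Vale.Agent.P151G

open Vale.Agent.P151

/-- A connected bounded degree graph with a cocompact group action, slowly growing balls at some
scales, and a stretched exponential lower bound on the volume of balls. -/
structure Su (V Γ : Type*) [DecidableEq V] [Group Γ] [MulAction Γ V] where
  nb : V → Finset V
  Δ : ℕ
  hnb : Nb nb Δ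
  act : ∀ (γ : Γ) a b, b ∈ nb a → γ • b ∈ nb (γ • a)
  o : V
  D₀ : ℕ
  near : ∀ u, ∃ γ : Γ, u ∈ ball nb D₀ (γ • o)
  conn : ∀ u, ∃ n, u ∈ ball nb n o
  fol : ∀ L, ∃ R, (ball nb (R + L) o).card ≤ 2 * (ball nb R o).card
  c : ℝ
  hc : 0 < c
  r₀ : ℕ
  gro : ∀ r : ℕ, r₀ ≤ r → ∀ y, Real.exp (c * Real.sqrt r) ≤ (ball nb r y).card

variable {V : Type*} [DecidableEq V]

open Classical in
/-- The cluster of a vertex as a finite set. -/
noncomputable def clu (ω : Finset (Sym2 V)) (a : V) : Finset V :=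
  (insert a (ω.biUnion Sym2.toFinset)).filter (fun v => Conn ω a v)

/-- The cluster of `a` has at least `n` vertices. -/
def Big (n : ℕ) (a : V) (ω : Finset (Sym2 V)) : Prop := n ≤ (clu ω a).card

/-- The ball of radius `m` about `y` meets a big cluster. -/
def BigU (nb : V → Finset V) (m n : ℕ) (y : V) (ω : Finset (Sym2 V)) : Prop :=
  ∃ u ∈ ball nb m y, Big n u ω

/-- Every ball centred in `A` meets a big cluster. -/
def AllB (nb : V → Finset V) (m n : ℕ) (A : Finset V) (ω : Finset (Sym2 V)) : Prop :=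
  ∀ y ∈ A, BigU nb m n y ω

/-- Two distinct big clusters. -/
def Tw (n : ℕ) (a b : V) (ω : Finset (Sym2 V)) : Prop := Big n a ω ∧ Big n b ω ∧ ¬ Conn ω a b

/-- Two balls are joined. -/
def Link (nb : V → Finset V) (m : ℕ) (x y : V) (ω : Finset (Sym2 V)) : Prop :=
  ∃ u ∈ ball nb m x, ∃ v ∈ ball nb m y, Conn ω u v

/-- Two balls are joined by a big cluster. -/
def LinkB (nb : V → Finset V) (m n : ℕ) (x y : V) (ω : Finset (Sym2 V)) : Prop :=
  ∃ u ∈ ball nb m x, ∃ v ∈ ball nb m y, Conn ω u v ∧ Big n u ω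

/-- A property of all large enough finite sets of edges. -/
def Ult (nb : V → Finset V) (P : Finset (Sym2 V) → Prop) : Prop :=
  ∃ F₀ : Finset (Sym2 V), (∀ e ∈ F₀, IsE nb e) ∧ ∀ F, F₀ ⊆ F → (∀ e ∈ F, IsE nb e) → P F

/-- The statement carried through the scales. -/
def Hyp (nb : V → Finset V) (p : ℝ) (m t : ℕ) (ε : ℝ) : Prop :=
  ∀ x, ∃ (A : Finset V) (ν : V → ℝ), (∀ y, 0 ≤ ν y ∧ ν y ≤ 1 / (t : ℝ) ^ 30) ∧
    ∑ y ∈ A, ν y = 1 ∧ Lb (fun _ => p) (IsE nb)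
      (fun ω => ind (1 / (t : ℝ) ≤ ∑ y ∈ A, ν y * ind (Link nb m x y ω))) (1 - ε)

open Classical in
/-- Chains of `k` jumps of length at most `ρ` from `y`. -/
noncomputable def Ch (nb : V → Finset V) (k ρ : ℕ) (y : V) : Finset (Fin (k + 1) → V) :=
  (Fintype.piFinset fun _ => ball nb (k * ρ) y).filter
    (fun c => c 0 = y ∧ ∀ i : Fin k, c i.succ ∈ ball nb ρ (c i.castSucc))

/-- The weight of a chain: the end is uniform in a ball and the chain is uniform given its end. -/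
noncomputable def cw (nb : V → Finset V) (k ρ : ℕ) (c : Fin (k + 1) → V) : ℝ :=
  1 / ((((Ch nb k ρ (c 0)).filter (fun c' => c' (Fin.last k) = c (Fin.last k))).card : ℝ) *
    (ball nb (k * ρ) (c 0)).card)

variable {nb : V → Finset V} {Δ m n : ℕ} {a b u v x y : V} {ω ω' : Finset (Sym2 V)}
  {P Q : Finset (Sym2 V) → Prop}

theorem mem_clu : v ∈ clu ω a ↔ Conn ω a v := by
  classical
  refine ⟨fun h => (Finset.mem_filter.1 h).2, fun h => Finset.mem_filter.2 ⟨?_, h⟩⟩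
  induction h with
  | refl => exact Finset.mem_insert_self _ _
  | tail _ h2 _ =>
    exact Finset.mem_insert_of_mem (Finset.mem_biUnion.2 ⟨_, h2, by simp⟩)

theorem self_mem_clu : a ∈ clu ω a := mem_clu.2 (Conn.refl _ _)

theorem clu_mono (h : ω ⊆ ω') : clu ω a ⊆ clu ω' a := fun _ hv => mem_clu.2 ((mem_clu.1 hv).mono h)

theorem clu_eq (h : Conn ω a b) : clu ω a = clu ω b := by
  ext v
  rw [mem_clu, mem_clu]
  exact ⟨fun h' => h.symm.trans h', fun h' => h.trans h'⟩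

theorem Big.mono (h : Big n a ω) (hω : ω ⊆ ω') : Big n a ω' :=
  le_trans h (Finset.card_le_card (clu_mono hω))

theorem Big.conn (h : Big n a ω) (h' : Conn ω a b) : Big n b ω := by
  unfold Big at h ⊢
  rwa [← clu_eq h']

theorem Big.le {n' : ℕ} (h : Big n a ω) (h' : n' ≤ n) : Big n' a ω := le_trans h' h

theorem big_of_subset {S : Finset V} (hS : n ≤ S.card) (h : ∀ v ∈ S, Conn ω a v) : Big n a ω :=
  hS.trans (Finset.card_le_card fun v hv => mem_clu.2 (h v hv))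

theorem BigU.mono (h : BigU nb m n y ω) (hω : ω ⊆ ω') : BigU nb m n y ω' :=
  let ⟨u, hu, h1⟩ := h; ⟨u, hu, h1.mono hω⟩

theorem AllB.mono {A : Finset V} (h : AllB nb m n A ω) (hω : ω ⊆ ω') : AllB nb m n A ω' :=
  fun y hy => (h y hy).mono hω

theorem Link.mono (h : Link nb m x y ω) (hω : ω ⊆ ω') : Link nb m x y ω' :=
  let ⟨u, hu, v, hv, h1⟩ := h; ⟨u, hu, v, hv, h1.mono hω⟩

theorem LinkB.mono (h : LinkB nb m n x y ω) (hω : ω ⊆ ω') : LinkB nb m n x y ω' :=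
  let ⟨u, hu, v, hv, h1, h2⟩ := h; ⟨u, hu, v, hv, h1.mono hω, h2.mono hω⟩

theorem Tw.symm (h : Tw n a b ω) : Tw n b a ω := ⟨h.2.1, h.1, fun h' => h.2.2 h'.symm⟩

omit [DecidableEq V] in
theorem mono_ind {P : Finset (Sym2 V) → Prop} (h : ∀ a b, a ⊆ b → P a → P b) :
    Monotone (fun ω => ind (P ω)) := fun a b hab => ind_mono (h a b hab)

theorem link_sum_mono {κ : Type*} (I : Finset κ) (W : κ → ℝ) (z : κ → V) (hW : ∀ l ∈ I, 0 ≤ W l)
    (hω : ω ⊆ ω') : ∑ l ∈ I, W l * ind (Link nb m x (z l) ω) ≤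
      ∑ l ∈ I, W l * ind (Link nb m x (z l) ω') :=
  Finset.sum_le_sum fun l hl =>
    mul_le_mul_of_nonneg_left (ind_mono fun h => h.mono hω) (hW l hl)

omit [DecidableEq V] in
theorem Ult.mono (h : Ult nb P) (hPQ : ∀ F, (∀ e ∈ F, IsE nb e) → P F → Q F) : Ult nb Q :=
  let ⟨F₀, h1, h2⟩ := h; ⟨F₀, h1, fun F hF hE => hPQ F hE (h2 F hF hE)⟩

omit [DecidableEq V] in
theorem Ult.of_forall (h : ∀ F, (∀ e ∈ F, IsE nb e) → P F) : Ult nb P :=
  ⟨∅, by simp, fun F _ hE => h F hE⟩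

theorem Ult.and (h : Ult nb P) (h' : Ult nb Q) : Ult nb (fun F => P F ∧ Q F) := by
  obtain ⟨F₀, h1, h2⟩ := h
  obtain ⟨F₁, h3, h4⟩ := h'
  exact ⟨F₀ ∪ F₁, fun e he => (Finset.mem_union.1 he).elim (h1 e) (h3 e), fun F hF hE =>
    ⟨h2 F (Finset.subset_union_left.trans hF) hE, h4 F (Finset.subset_union_right.trans hF) hE⟩⟩

theorem Ult.all {κ : Type*} (I : Finset κ) {R : κ → Finset (Sym2 V) → Prop}
    (h : ∀ i ∈ I, Ult nb (R i)) : Ult nb (fun F => ∀ i ∈ I, R i F) := by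
  choose! G h1 h2 using h
  refine ⟨I.biUnion G, fun e he => ?_, fun F hF hE i hi =>
    h2 i hi F ((Finset.subset_biUnion_of_mem G hi).trans hF) hE⟩
  obtain ⟨i, hi, he⟩ := Finset.mem_biUnion.1 he
  exact h1 i hi e he

omit [DecidableEq V] in
theorem Ult.sup {F₀ : Finset (Sym2 V)} (h : ∀ e ∈ F₀, IsE nb e) : Ult nb (fun F => F₀ ⊆ F) :=
  ⟨F₀, h, fun _ hF _ => hF⟩

theorem Ult.of_Lb {w : Sym2 V → ℝ} {f : Finset (Sym2 V) → ℝ} {c : ℝ} (hw : Wt w)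
    (hf : Monotone f) (h : Lb w (IsE nb) f c) : Ult nb (fun F => c ≤ Ex w F f) :=
  let ⟨F₀, h1, h2⟩ := h; ⟨F₀, h1, fun _ hF _ => h2.trans (Ex_le_of_subset hw hF hf)⟩

theorem Ult.to_Lb {w : Sym2 V → ℝ} {f : Finset (Sym2 V) → ℝ} {c : ℝ}
    (h : Ult nb (fun F => c ≤ Ex w F f)) : Lb w (IsE nb) f c :=
  let ⟨F₀, h1, h2⟩ := h; ⟨F₀, h1, h2 F₀ subset_rfl h1⟩

variable {Γ : Type*} [Group Γ] [MulAction Γ V]

/-- Translate a set of edges. -/
def sm (γ : Γ) (ω : Finset (Sym2 V)) : Finset (Sym2 V) := ω.image (Sym2.map (γ • ·))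

theorem sm_sm (γ : Γ) (ω : Finset (Sym2 V)) : sm γ⁻¹ (sm γ ω) = ω := by
  unfold sm
  rw [Finset.image_image]
  conv_rhs => rw [← Finset.image_id (s := ω)]
  exact Finset.image_congr fun e _ => smul_map_map γ e

theorem conn_sm (γ : Γ) : Conn (sm γ ω) (γ • a) (γ • b) ↔ Conn ω a b :=
  ⟨fun h => by
    have := conn_smul γ⁻¹ h
    rwa [inv_smul_smul, inv_smul_smul, ← sm, sm_sm] at this, conn_smul γ⟩

theorem clu_sm (γ : Γ) : clu (sm γ ω) (γ • a) = (clu ω a).image (γ • ·) := by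
  ext v
  rw [mem_clu, Finset.mem_image]
  constructor
  · intro h
    refine ⟨γ⁻¹ • v, mem_clu.2 ((conn_sm γ).1 ?_), smul_inv_smul γ v⟩
    rwa [smul_inv_smul]
  · rintro ⟨x, hx, rfl⟩
    exact (conn_sm γ).2 (mem_clu.1 hx)

theorem big_sm (γ : Γ) : Big n (γ • a) (sm γ ω) ↔ Big n a ω := by
  unfold Big
  rw [clu_sm, Finset.card_image_of_injective _ (MulAction.injective γ)]

theorem tw_sm (γ : Γ) : Tw n (γ • a) (γ • b) (sm γ ω) ↔ Tw n a b ω := by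
  unfold Tw
  rw [big_sm, big_sm, conn_sm]

theorem Ex_sm (γ : Γ) (p : ℝ) (F : Finset (Sym2 V)) (f : Finset (Sym2 V) → ℝ) :
    Ex (fun _ => p) (sm γ F) f = Ex (fun _ => p) F (fun ω => f (sm γ ω)) :=
  Ex_image _ (smul_map_inj γ) _ _ _

theorem card_sm (γ : Γ) (F : Finset (Sym2 V)) : (sm γ F).card = F.card :=
  Finset.card_image_of_injective _ (smul_map_inj γ)

namespace Su

variable (S : Su V Γ)

/-- The constant of the mass transport bound for chains. -/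
def C₀ : ℝ := 2 * ((S.Δ : ℝ) + 1) ^ (2 * S.D₀)

/-- The constant of the two cluster bound. -/
def C₁ : ℝ := 4 * (2 * (S.Δ : ℝ) + 1) * ((S.Δ : ℝ) + 1) ^ (2 * S.D₀)

/-- The constant of the induction step. -/
noncomputable def M (lo : ℝ) (m : ℕ) : ℝ := (((S.Δ : ℝ) + 1) ^ m) ^ 2 * (S.C₁ / lo + 2 * S.C₀)

theorem one_le_C₀ : 1 ≤ S.C₀ := by
  have : (1 : ℝ) ≤ ((S.Δ : ℝ) + 1) ^ (2 * S.D₀) :=
    one_le_pow₀ (by linarith [(Nat.cast_nonneg S.Δ : (0 : ℝ) ≤ _)])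
  unfold C₀
  linarith

theorem C₁_pos : 0 < S.C₁ := by unfold C₁; positivity

theorem mem_nb_smul (γ : Γ) {a b : V} : γ • b ∈ S.nb (γ • a) ↔ b ∈ S.nb a :=
  ⟨fun h => by simpa using S.act γ⁻¹ _ _ h, S.act γ a b⟩

theorem nb_smul (γ : Γ) (a : V) : S.nb (γ • a) = (S.nb a).image (γ • ·) := by
  ext v
  rw [Finset.mem_image]
  refine ⟨fun h => ⟨γ⁻¹ • v, (S.mem_nb_smul γ).1 (by rwa [smul_inv_smul]), smul_inv_smul γ v⟩, ?_⟩
  rintro ⟨x, hx, rfl⟩
  exact S.act γ a x hx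

theorem smul_mem_ball (γ : Γ) {n : ℕ} {u v : V} (h : v ∈ ball S.nb n u) :
    γ • v ∈ ball S.nb n (γ • u) := by
  induction n generalizing v with
  | zero => rw [mem_ball_zero.1 h]; exact mem_ball_self
  | succ n ih =>
    rcases mem_ball_succ.1 h with h1 | ⟨a, ha, h1⟩
    · exact mem_ball_succ.2 (Or.inl (ih h1))
    · exact ball_step (ih ha) (S.act γ a v h1)

theorem mem_ball_smul (γ : Γ) {n : ℕ} {u v : V} :
    γ • v ∈ ball S.nb n (γ • u) ↔ v ∈ ball S.nb n u :=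
  ⟨fun h => by simpa using S.smul_mem_ball γ⁻¹ h, S.smul_mem_ball γ⟩

theorem mem_ball_smul' (γ : Γ) {n : ℕ} {u v : V} :
    v ∈ ball S.nb n (γ • u) ↔ γ⁻¹ • v ∈ ball S.nb n u := by
  rw [← S.mem_ball_smul γ (v := γ⁻¹ • v), smul_inv_smul]

theorem ball_smul (γ : Γ) (n : ℕ) (u : V) :
    ball S.nb n (γ • u) = (ball S.nb n u).image (γ • ·) := by
  ext v
  rw [S.mem_ball_smul', Finset.mem_image]
  exact ⟨fun h => ⟨_, h, smul_inv_smul γ v⟩, fun ⟨x, hx, e⟩ => by rwa [← e, inv_smul_smul]⟩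

theorem card_ball_smul (γ : Γ) (n : ℕ) (u : V) :
    (ball S.nb n (γ • u)).card = (ball S.nb n u).card := by
  rw [S.ball_smul, Finset.card_image_of_injective _ (MulAction.injective γ)]

theorem isE_smul (γ : Γ) {e : Sym2 V} : IsE S.nb (e.map (γ • ·)) ↔ IsE S.nb e := by
  induction e using Sym2.ind with
  | h a b => rw [Sym2.map_mk, isE_mk S.hnb, isE_mk S.hnb, S.mem_nb_smul]

theorem isE_sm (γ : Γ) {F : Finset (Sym2 V)} (h : ∀ e ∈ F, IsE S.nb e) :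
    ∀ e ∈ sm γ F, IsE S.nb e := by
  intro e he
  obtain ⟨e', he', rfl⟩ := Finset.mem_image.1 he
  exact (S.isE_smul γ).2 (h e' he')

theorem smul_mem_inE (γ : Γ) {r : ℕ} {u : V} {e : Sym2 V} (h : e ∈ inE S.nb (ball S.nb r u)) :
    e.map (γ • ·) ∈ inE S.nb (ball S.nb r (γ • u)) := by
  obtain ⟨a, ha, b, hb, h1, rfl⟩ := mem_inE.1 h
  exact mem_inE.2 ⟨_, S.smul_mem_ball γ ha, _, S.smul_mem_ball γ hb, S.act γ a b h1, rfl⟩

theorem inE_smul (γ : Γ) (r : ℕ) (u : V) :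
    inE S.nb (ball S.nb r (γ • u)) = sm γ (inE S.nb (ball S.nb r u)) := by
  ext e
  refine ⟨fun h => Finset.mem_image.2 ⟨e.map (γ⁻¹ • ·), ?_, smul_map_map' γ e⟩, fun h => ?_⟩
  · simpa only [inv_smul_smul] using S.smul_mem_inE γ⁻¹ h
  · obtain ⟨e', he', rfl⟩ := Finset.mem_image.1 h
    exact S.smul_mem_inE γ he'

theorem bigU_sm (γ : Γ) : BigU S.nb m n (γ • y) (sm γ ω) ↔ BigU S.nb m n y ω := by
  refine ⟨fun ⟨u, hu, h⟩ => ⟨γ⁻¹ • u, (S.mem_ball_smul' γ).1 hu, (big_sm γ).1 ?_⟩,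
    fun ⟨u, hu, h⟩ => ⟨γ • u, S.smul_mem_ball γ hu, (big_sm γ).2 h⟩⟩
  rwa [smul_inv_smul]

/-- Balls become uniformly large. -/
theorem large (K : ℝ) : ∃ R, ∀ y, K ≤ (ball S.nb R y).card := by
  obtain ⟨N, hN⟩ := exists_nat_ge (K / S.c)
  refine ⟨(N + S.r₀) ^ 2, fun y => le_trans ?_ (S.gro _ ?_ y)⟩
  · rw [Nat.cast_pow, Real.sqrt_sq (Nat.cast_nonneg _)]
    rw [div_le_iff₀ S.hc] at hN
    have h1 := Real.add_one_le_exp (S.c * ((N + S.r₀ : ℕ) : ℝ))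
    have h2 : (N : ℝ) * S.c ≤ S.c * ((N + S.r₀ : ℕ) : ℝ) := by
      push_cast
      nlinarith [S.hc, (Nat.cast_nonneg S.r₀ : (0 : ℝ) ≤ _)]
    linarith
  · exact (Nat.le_add_left _ _).trans (Nat.le_self_pow two_ne_zero _)

end Su

end Vale.Agent.P151G
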