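import Vale.Agent.P151G.Defs

/-! Averaging an invariant function over a ball. -/

namespace Vale.Agent.P151G

open Vale.Agent.P151

variable {V Γ : Type*} [DecidableEq V] [Group Γ] [MulAction Γ V]

theorem mtp (S : Su V Γ) (f : V → ℝ) (hf : ∀ v, 0 ≤ f v) (hi : ∀ (γ : Γ) v, f (γ • v) = f v)
    (R : ℕ) (v : V) : f v * (ball S.nb R S.o).card ≤
      ((S.Δ : ℝ) + 1) ^ (2 * S.D₀) * ∑ u ∈ ball S.nb (R + 2 * S.D₀) S.o, f u := by
  choose g hg using S.near
  set v' := (g v)⁻¹ • v with hv'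
  have h1 : v' ∈ ball S.nb S.D₀ S.o := (S.mem_ball_smul' _).1 (hg v)
  have h2 : ∀ u, g u • v' ∈ ball S.nb (2 * S.D₀) u := fun u => by
    rw [two_mul]
    exact ball_trans (ball_symm S.hnb (hg u)) (S.smul_mem_ball _ h1)
  have h3 : ∀ u, f (g u • v') = f v := fun u => by rw [hi, hv', hi]
  calc f v * (ball S.nb R S.o).card = ∑ u ∈ ball S.nb R S.o, f (g u • v') := by
        simp only [h3, Finset.sum_const, nsmul_eq_mul, mul_comm]
    _ = ∑ z ∈ ball S.nb (R + 2 * S.D₀) S.o,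
          ∑ u ∈ (ball S.nb R S.o).filter (fun u => g u • v' = z), f (g u • v') :=
        (Finset.sum_fiberwise_of_maps_to (fun u hu => ball_trans hu (h2 u)) _).symm
    _ ≤ ∑ z ∈ ball S.nb (R + 2 * S.D₀) S.o, ((S.Δ : ℝ) + 1) ^ (2 * S.D₀) * f z := by
        refine Finset.sum_le_sum fun z _ => ?_
        rw [Finset.sum_congr rfl fun u hu => by rw [(Finset.mem_filter.1 hu).2],
          Finset.sum_const, nsmul_eq_mul]
        refine mul_le_mul_of_nonneg_right ?_ (hf z)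
        have h4 : ((ball S.nb R S.o).filter (fun u => g u • v' = z)).card ≤
            (S.Δ + 1) ^ (2 * S.D₀) := by
          refine le_trans (Finset.card_le_card fun u hu => ?_) (card_ball (u := z) S.hnb)
          rw [← (Finset.mem_filter.1 hu).2]
          exact ball_symm S.hnb (h2 u)
        exact_mod_cast h4
    _ = _ := by rw [Finset.mul_sum]

/-- At a radius of slow growth, a bound on the sum over a ball bounds an invariant function. -/
theorem mtp_le (S : Su V Γ) (L : ℕ) : ∃ R, ∀ (K : ℝ) (f : V → ℝ), 0 ≤ K → (∀ v, 0 ≤ f v) →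
    (∀ (γ : Γ) v, f (γ • v) = f v) →
    ∑ u ∈ ball S.nb R S.o, f u ≤ K * (ball S.nb (R + L) S.o).card → ∀ v, f v ≤ K * S.C₀ := by
  obtain ⟨R, hR⟩ := S.fol (2 * S.D₀ + L)
  refine ⟨R + 2 * S.D₀, fun K f hK hf hi h v => ?_⟩
  have h0 : (0 : ℝ) < (ball S.nb R S.o).card :=
    Nat.cast_pos.2 (Finset.card_pos.2 ⟨_, mem_ball_self⟩)
  have h1 : ((ball S.nb (R + 2 * S.D₀ + L) S.o).card : ℝ) ≤ 2 * (ball S.nb R S.o).card := by
    rw [add_assoc]
    exact_mod_cast hR
  refine le_of_mul_le_mul_right ((mtp S f hf hi R v).trans ?_) h0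
  calc _ ≤ ((S.Δ : ℝ) + 1) ^ (2 * S.D₀) * (K * (2 * (ball S.nb R S.o).card)) :=
        mul_le_mul_of_nonneg_left (h.trans (mul_le_mul_of_nonneg_left h1 hK)) (by positivity)
    _ = _ := by unfold Su.C₀; ring

end Vale.Agent.P151G
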