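import Vale.Agent.P151G.Defs

/-! Small witnesses for big clusters. -/

namespace Vale.Agent.P151G

open Vale.Agent.P151

variable {V : Type*} [DecidableEq V] {nb : V → Finset V} {Δ n R : ℕ} {a o : V}
  {ω : Finset (Sym2 V)}

theorem wit_ind (nb : V → Finset V) {j : ℕ} (hj : j < (clu ω a).card) :
    ∃ (S : Finset V) (W : Finset (Sym2 V)), S.card = j + 1 ∧ a ∈ S ∧ W ⊆ ω ∧
      (∀ e ∈ W, ∀ v ∈ e, v ∈ S) ∧ (∀ v ∈ S, Conn W a v) ∧
      ((∀ x y, s(x, y) ∈ ω → y ∈ nb x) → S ⊆ ball nb j a) := by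
  induction j with
  | zero =>
    exact ⟨{a}, ∅, rfl, Finset.mem_singleton_self a, Finset.empty_subset _, by simp,
      fun v hv => Finset.mem_singleton.1 hv ▸ Conn.refl _ _,
      fun _ v hv => Finset.mem_singleton.1 hv ▸ mem_ball_self⟩
  | succ j ih =>
    obtain ⟨S, W, h1, h2, h3, h4, h5, h6⟩ := ih (Nat.lt_of_succ_lt hj)
    obtain ⟨x, y, hx, hxy, hy⟩ : ∃ x y, x ∈ S ∧ s(x, y) ∈ ω ∧ y ∉ S := by
      by_contra hc
      refine absurd (Finset.card_le_card fun v hv => ?_ : (clu ω a).card ≤ S.card) (by omega)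
      refine (mem_clu.1 hv).closed (P := fun z => z ∈ S) h2 fun x y hx hxy => ?_
      by_contra hy
      exact hc ⟨x, y, hx, hxy, hy⟩
    refine ⟨insert y S, insert s(x, y) W, by rw [Finset.card_insert_of_notMem hy, h1],
      Finset.mem_insert_of_mem h2, Finset.insert_subset hxy h3, fun e he v hv => ?_,
      fun v hv => ?_, fun h => Finset.insert_subset (ball_step (h6 h hx) (h x y hxy))
        ((h6 h).trans (ball_le (Nat.le_succ j)))⟩
    · rcases Finset.mem_insert.1 he with rfl | he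
      · rcases Sym2.mem_iff.1 hv with rfl | rfl
        · exact Finset.mem_insert_of_mem hx
        · exact Finset.mem_insert_self _ _
      · exact Finset.mem_insert_of_mem (h4 e he v hv)
    · rcases Finset.mem_insert.1 hv with rfl | hv
      · exact ((h5 x hx).mono (Finset.subset_insert _ _)).tail (Finset.mem_insert_self _ _)
      · exact (h5 v hv).mono (Finset.subset_insert _ _)

/-- A big cluster has a witness with at most `n` vertices. -/
theorem big_wit (h : Big n a ω) : ∃ (S : Finset V) (W : Finset (Sym2 V)),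
    S.card ≤ n ∧ W ⊆ ω ∧ (∀ e ∈ W, ∀ v ∈ e, v ∈ S) ∧ Big n a W := by
  rcases n with _ | j
  · exact ⟨∅, ∅, le_rfl, Finset.empty_subset _, by simp, Nat.zero_le _⟩
  · obtain ⟨S, W, h1, -, h3, h4, h5, -⟩ := wit_ind (fun _ => ∅) (j := j) h
    exact ⟨S, W, h1.le, h3, h4, big_of_subset h1.ge h5⟩

theorem big_loc (hnb : Nb nb Δ) (hω : ∀ e ∈ ω, IsE nb e) (h : Big n a ω) :
    Big n a (ω ∩ inE nb (ball nb n a)) := by
  rcases n with _ | j
  · exact Nat.zero_le _
  · obtain ⟨S, W, h1, -, h3, h4, h5, h6⟩ := wit_ind nb (j := j) h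
    have h7 := (h6 fun x y h => (isE_mk hnb).1 (hω _ h)).trans (ball_le (Nat.le_succ j))
    refine (big_of_subset h1.ge h5).mono fun e he => Finset.mem_inter.2 ⟨h3 he, ?_⟩
    obtain ⟨x, y, hxy, rfl⟩ := hω e (h3 he)
    exact mem_inE.2 ⟨x, h7 (h4 _ he x (Sym2.mem_mk_left x y)), y,
      h7 (h4 _ he y (Sym2.mem_mk_right x y)), hxy, rfl⟩

theorem big_of_exit (hnb : Nb nb Δ) (hω : ∀ e ∈ ω, IsE nb e)
    (h : a ∈ Cl ω (↑(ball nb n a) : Set V)ᶜ) : Big n a ω := by
  by_contra hc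
  have h0 : (clu ω a).card < n := not_le.1 hc
  have h8 : 0 < (clu ω a).card := Finset.card_pos.2 ⟨a, self_mem_clu⟩
  obtain ⟨S, W, h1, -, h3, -, h5, h6⟩ :=
    wit_ind nb (j := (clu ω a).card - 1) (ω := ω) (a := a) (by omega)
  have h7 := (h6 fun x y h => (isE_mk hnb).1 (hω _ h)).trans (ball_le (n := n) (by omega))
  have h9 : S = clu ω a := Finset.eq_of_subset_of_card_le
    (fun v hv => mem_clu.2 ((h5 v hv).mono h3)) (by omega)
  obtain ⟨x, hx, hxa⟩ := h
  exact hx (h7 (h9 ▸ mem_clu.2 hxa.symm))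

theorem exit_of_big (h : Big ((ball nb R o).card + 1) o ω) :
    o ∈ Cl ω (↑(ball nb R o) : Set V)ᶜ := by
  obtain ⟨x, h1, h2⟩ := Finset.exists_mem_notMem_of_card_lt_card (Nat.lt_of_succ_le h)
  exact ⟨x, h2, (mem_clu.1 h1).symm⟩

end Vale.Agent.P151G
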