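import Vale.Agent.P151G.Akn
import Vale.Agent.P151G.Mtp
import Vale.Agent.P151G.Wit

/-! The two cluster bound at one edge. -/

namespace Vale.Agent.P151G

open Vale.Agent.P151

variable {V Γ : Type*} [DecidableEq V] [Group Γ] [MulAction Γ V]

theorem tw_anti {nb : V → Finset V} {Δ n : ℕ} (hnb : Nb nb Δ) {p : ℝ} (hp0 : 0 ≤ p) (hp1 : p ≤ 1)
    {a b : V} (hb : b ∈ nb a) {F F' : Finset (Sym2 V)} (hF : ∀ e ∈ F, IsE nb e) (h : F' ⊆ F)
    (h' : inE nb (ball nb (n + 1) a) ⊆ F') :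
    Ex (fun _ => p) F (fun ω => ind (Tw n a b ω)) ≤
      Ex (fun _ => p) F' (fun ω => ind (Tw n a b ω)) := by
  have hw : Wt (fun _ : Sym2 V => p) := fun _ => ⟨hp0, hp1⟩
  rw [← Ex_inter h]
  refine Ex_mono hw fun ω hω => ind_mono fun ht => ?_
  have hE : ∀ e ∈ ω, IsE nb e := fun e he => hF e (hω he)
  have h1 : ball nb n b ⊆ ball nb (n + 1) a := fun v hv => by
    rw [add_comm]
    exact ball_trans (mem_ball_one hb) hv
  exact ⟨(big_loc hnb hE ht.1).mono (Finset.inter_subset_inter subset_rfl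
      ((inE_mono (ball_le (Nat.le_succ n))).trans h')),
    (big_loc hnb hE ht.2.1).mono (Finset.inter_subset_inter subset_rfl ((inE_mono h1).trans h')),
    fun hc => ht.2.2 (hc.mono Finset.inter_subset_left)⟩

theorem edge (S : Su V Γ) {p s : ℝ} (hp0 : 0 < p) (hp1 : p ≤ 1) {n : ℕ} (hs : 2 ≤ s)
    (hn : s ^ 2 ≤ n) {a b : V} (hb : b ∈ S.nb a) :
    Ult S.nb (fun F => Ex (fun _ => p) F (fun ω => ind (Tw n a b ω)) ≤ S.C₁ / (p * s)) := by
  have hw : Wt (fun _ : Sym2 V => p) := fun _ => ⟨hp0.le, hp1⟩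
  have hs0 : 0 < s := by linarith
  obtain ⟨R, hR⟩ := mtp_le S (n + 1)
  have key := hR (2 * (2 * (S.Δ : ℝ) + 1) / (p * s))
    (fun v => ∑ c ∈ S.nb v, Ex (fun _ => p) (inE S.nb (ball S.nb (R + (R + (n + 1))) v))
      (fun ω => ind (Tw n v c ω))) (by positivity)
    (fun v => Finset.sum_nonneg fun c _ => Ex_ind_nonneg hw _)
    (fun γ v => by
      rw [S.nb_smul, Finset.sum_image fun x _ y _ e => MulAction.injective γ e, S.inE_smul]
      refine Finset.sum_congr rfl fun c _ => ?_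
      rw [Ex_sm]
      exact Ex_congr fun ω _ => ind_congr (tw_sm γ))
    (by
      have h1 := akn S.hnb hp0 hp1 hs hn (ball S.nb (R + (n + 1)) S.o)
      rw [div_mul_eq_mul_div]
      refine le_trans ?_ h1
      refine le_trans (Finset.sum_le_sum fun u hu => ?_)
        (Finset.sum_le_sum_of_subset_of_nonneg (ball_le (Nat.le_add_right R (n + 1)))
          fun u _ _ => Finset.sum_nonneg fun c _ => Ex_ind_nonneg hw _)
      have h2 : ball S.nb (n + 1) u ⊆ ball S.nb (R + (n + 1)) S.o := fun v hv => ball_trans hu hv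
      have h3 : ball S.nb (R + (n + 1)) S.o ⊆ ball S.nb (R + (R + (n + 1))) u :=
        fun v hv => ball_trans (ball_symm S.hnb hu) hv
      rw [Finset.filter_true_of_mem fun c hc =>
        h2 (ball_le (Nat.le_add_left 1 n) (mem_ball_one hc))]
      exact Finset.sum_le_sum fun c hc => tw_anti S.hnb hp0.le hp1 hc
        (fun e he => isE_of_mem_inE he) (inE_mono h3) (inE_mono h2)) a
  refine ⟨inE S.nb (ball S.nb (R + (R + (n + 1))) a), fun e he => isE_of_mem_inE he,
    fun F hF hE => ?_⟩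
  refine (tw_anti S.hnb hp0.le hp1 hb hE hF (inE_mono (ball_le (by omega)))).trans ?_
  refine (Finset.single_le_sum (f := fun c => Ex (fun _ => p)
    (inE S.nb (ball S.nb (R + (R + (n + 1))) a)) (fun ω => ind (Tw n a c ω)))
    (fun c _ => Ex_ind_nonneg hw _) hb).trans (key.trans (le_of_eq ?_))
  unfold Su.C₀ Su.C₁
  ring

end Vale.Agent.P151G
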