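import Vale.Agent.P151G.Defs
import Vale.Agent.P151.Final

/-! From the growth of the graph to the setup. -/

namespace Vale.Agent.P151G

open Vale.Agent.P151

variable {V Γ : Type*} [DecidableEq V] [Group Γ] [MulAction Γ V]

theorem gro_walk (G : SimpleGraph V) [G.LocallyFinite] {a b : V} (p : G.Walk a b) :
    b ∈ ball (fun v => G.neighborFinset v) p.length a := by
  induction p with
  | nil => exact mem_ball_self
  | cons h p ih =>
    rw [SimpleGraph.Walk.length_cons, add_comm]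
    exact ball_trans (mem_ball_one ((G.mem_neighborFinset _ _).2 h)) ih

theorem gro_dist (G : SimpleGraph V) [G.LocallyFinite] (hG : G.Connected) {o v : V} {r : ℕ}
    (h : v ∈ ball (fun v => G.neighborFinset v) r o) : G.dist o v ≤ r := by
  induction r generalizing v with
  | zero => rw [mem_ball_zero.1 h, SimpleGraph.dist_self]
  | succ r ih =>
    rcases mem_ball_succ.1 h with h1 | ⟨a, ha, h1⟩
    · exact (ih h1).trans (Nat.le_succ r)
    · have h2 : G.dist a v = 1 :=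
        SimpleGraph.dist_eq_one_iff_adj.2 ((G.mem_neighborFinset _ _).1 h1)
      have h3 := hG.dist_triangle (u := o) (v := a) (w := v)
      have h4 := ih ha
      omega

theorem ball_eq_dist (G : SimpleGraph V) [G.LocallyFinite] (hG : G.Connected) (o : V) (r : ℕ) :
    {v | G.dist o v ≤ r}.ncard = (ball (fun v => G.neighborFinset v) r o).card := by
  rw [← Set.ncard_coe_finset]
  congr 1
  ext v
  refine ⟨fun h => ?_, fun h => gro_dist G hG h⟩
  obtain ⟨p, hp⟩ := hG.exists_walk_length_eq_dist o v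
  exact ball_le (hp.le.trans h) (gro_walk G p)

theorem fol_of_sub {nb : V → Finset V} {Δ d : ℕ} (hnb : Nb nb Δ) {o x : V} (hx : x ∈ ball nb d o)
    (h : ∀ ε : ℝ, 0 < ε → ∀ r₀ : ℕ, ∃ r : ℕ, r₀ ≤ r ∧
      ((ball nb r o).card : ℝ) ≤ Real.exp (ε * r)) (L : ℕ) :
    ∃ R, (ball nb (R + L) x).card ≤ 2 * (ball nb R x).card := by
  by_contra hc
  push Not at hc
  have h1 : ∀ j : ℕ, 2 ^ j ≤ (ball nb (j * L) x).card := by
    intro j
    induction j with
    | zero => exact Finset.card_pos.2 ⟨x, mem_ball_self⟩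
    | succ j ih =>
      have h2 := hc (j * L)
      rw [pow_succ, Nat.succ_mul]
      omega
  have hl : 0 < Real.log 2 := Real.log_pos one_lt_two
  have hL : (0 : ℝ) < 2 * ((L : ℝ) + 1) := by positivity
  obtain ⟨r, hr, h2⟩ := h (Real.log 2 / (2 * ((L : ℝ) + 1))) (div_pos hl hL) (2 * d + 2 * (L + 1))
  obtain ⟨j, hj⟩ : ∃ j, (r - d) / (L + 1) = j := ⟨_, rfl⟩
  have h3 : (L + 1) * j ≤ r - d := hj ▸ Nat.mul_div_le _ _
  have h4 : r - d < (L + 1) * (j + 1) := hj ▸ Nat.lt_mul_div_succ _ (Nat.succ_pos L)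
  have h5 : j * L ≤ (L + 1) * j := by
    rw [mul_comm]
    exact Nat.mul_le_mul_right _ (Nat.le_succ L)
  have h6 : 2 ^ j ≤ (ball nb r o).card :=
    (h1 j).trans (Finset.card_le_card fun v hv => ball_le (by omega) (ball_trans hx hv))
  have h7 : Real.exp (j * Real.log 2) ≤ Real.exp (Real.log 2 / (2 * ((L : ℝ) + 1)) * r) := by
    rw [Real.exp_nat_mul, Real.exp_log two_pos]
    exact le_trans (by exact_mod_cast h6) h2
  rw [Real.exp_le_exp, div_mul_eq_mul_div, le_div_iff₀ hL, mul_comm (j : ℝ), mul_assoc] at h7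
  have h8 : j * (2 * (L + 1)) ≤ r := by exact_mod_cast le_of_mul_le_mul_left h7 hl
  have h9 : j * (2 * (L + 1)) = 2 * ((L + 1) * j) := by ring
  rw [mul_add, mul_one] at h4
  omega

theorem su_exists (G : SimpleGraph V) [G.LocallyFinite] (hG : G.Connected)
    (hact : ∀ (γ : Γ) a b, G.Adj a b → G.Adj (γ • a) (γ • b))
    (hqt : Finite (MulAction.orbitRel.Quotient Γ V)) (o : V)
    (hsub : ∀ ε : ℝ, 0 < ε → ∀ r₀ : ℕ, ∃ r : ℕ, r₀ ≤ r ∧
      ({v | G.dist o v ≤ r}.ncard : ℝ) ≤ Real.exp (ε * r))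
    (hgro : ∃ c : ℝ, 0 < c ∧ ∃ r₀ : ℕ, ∀ r : ℕ, r₀ ≤ r →
      Real.exp (c * Real.sqrt r) ≤ ({v | G.dist o v ≤ r}.ncard : ℝ)) (x : V) :
    ∃ S : Su V Γ, S.nb = (fun v => G.neighborFinset v) ∧ S.o = x := by
  simp only [ball_eq_dist G hG] at hsub hgro
  set nb : V → Finset V := fun v => G.neighborFinset v with hnb
  have act : ∀ (γ : Γ) a b, b ∈ nb a → γ • b ∈ nb (γ • a) := fun γ a b h =>
    (G.mem_neighborFinset _ _).2 (hact γ a b ((G.mem_neighborFinset _ _).1 h))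
  have act' : ∀ (γ : Γ) a b, b ∈ nb (γ • a) → γ⁻¹ • b ∈ nb a := fun γ a b h => by
    simpa using act γ⁻¹ _ _ h
  obtain ⟨Δ, hΔ⟩ := fn_bdd hqt (fun n v => (nb v).card ≤ n) (fun _ _ _ h h' => h'.trans h)
    (fun v => ⟨_, le_rfl⟩) (fun γ n v h => le_trans (Finset.card_le_card_of_injOn (fun b => γ⁻¹ • b)
      (fun b hb => act' γ v b hb) (MulAction.injective _).injOn) h)
  obtain ⟨D₀, hD₀⟩ := fn_bdd hqt (fun n v => ∃ γ : Γ, v ∈ ball nb n (γ • x))
    (fun _ _ _ h ⟨γ, h'⟩ => ⟨γ, ball_le h h'⟩)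
    (fun v => let ⟨n, hn⟩ := fn_conn G hG x v; ⟨n, 1, by rwa [one_smul]⟩)
    (fun γ n v ⟨γ', h⟩ => ⟨γ * γ', by rw [mul_smul]; exact fn_ball_smul act γ h⟩)
  have hN : Nb nb Δ :=
    ⟨fun a b h => (G.mem_neighborFinset _ _).2 ((G.mem_neighborFinset _ _).1 h).symm, hΔ⟩
  obtain ⟨d, hd⟩ : ∃ d, x ∈ ball nb d o := fn_conn G hG o x
  obtain ⟨c, hc, r₀, hr₀⟩ := hgro
  refine ⟨{ nb := nb, Δ := Δ, hnb := hN, act := act, o := x, D₀ := D₀, near := hD₀,
            conn := fn_conn G hG x, fol := fol_of_sub hN hd hsub, c := c / 2, hc := half_pos hc,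
            r₀ := 2 * (D₀ + d) + 2 * r₀, gro := fun r hr y => ?_ }, rfl, rfl⟩
  obtain ⟨γ, hγ⟩ := hD₀ y
  obtain ⟨k, rfl⟩ : ∃ k, r = D₀ + d + k := ⟨r - (D₀ + d), by omega⟩
  have h1 : (ball nb k o).card ≤ (ball nb (D₀ + d + k) y).card :=
    Finset.card_le_card_of_injOn (fun v => γ • v) (fun v hv => ball_trans
      (ball_trans (ball_symm hN hγ) (fn_ball_smul act γ (ball_symm hN hd)))
      (fn_ball_smul act γ hv)) (MulAction.injective γ).injOn
  refine le_trans (Real.exp_le_exp.2 ?_) ((hr₀ k (by omega)).trans (Nat.cast_le.2 h1))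
  have h2 : Real.sqrt ((D₀ + d + k : ℕ) : ℝ) ≤ 2 * Real.sqrt k := by
    rw [Real.sqrt_le_left (by positivity), mul_pow, Real.sq_sqrt (Nat.cast_nonneg k)]
    exact_mod_cast (by omega : D₀ + d + k ≤ 2 ^ 2 * k)
  have h3 := mul_le_mul_of_nonneg_left h2 (half_pos hc).le
  linarith

end Vale.Agent.P151G
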