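import Vale.Agent.P151G.Core
import Vale.Agent.P151G.Gro

/-! The final statement. -/

namespace Vale.Agent.P151G

open Vale.Agent.P151

theorem final_one {V Γ : Type*} [DecidableEq V] [Group Γ] [MulAction Γ V] (S : Su V Γ) :
    Far S.nb S.o (fun _ => 1) 1 := by
  intro R
  obtain ⟨n, hn⟩ := S.large ((ball S.nb R S.o).card + 1)
  have h1 : (ball S.nb R S.o).card < (ball S.nb n S.o).card := by exact_mod_cast hn S.o
  obtain ⟨v, hv, h2⟩ := Finset.exists_mem_notMem_of_card_lt_card h1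
  refine ⟨inE S.nb (ball S.nb n S.o), fun _ he => isE_of_mem_inE he, ?_⟩
  rw [Ex_det (inE S.nb (ball S.nb n S.o)) (fun e he => (if_pos he).symm), Finset.inter_self]
  exact (ind_pos ⟨v, h2, (conn_of_ball subset_rfl hv).symm⟩).ge

theorem final_zero {V : Type*} [DecidableEq V] {nb : V → Finset V} {o : V} {θ : ℝ}
    (h : Far nb o (fun _ => 0) θ) : θ ≤ 0 := by
  obtain ⟨F, -, h1⟩ := h 0
  rw [Ex_det ∅ (fun e _ => (if_neg (Finset.notMem_empty e)).symm), Finset.empty_inter] at h1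
  refine h1.trans (ind_neg fun ⟨v, hv, h2⟩ => hv ?_).le
  rw [h2.eq_of_empty]
  exact mem_ball_self

theorem final {V Γ : Type*} [Group Γ] [MulAction Γ V] (G : SimpleGraph V) [G.LocallyFinite]
    (hG : G.Connected) (hact : ∀ (γ : Γ) a b, G.Adj a b → G.Adj (γ • a) (γ • b))
    (hqt : Finite (MulAction.orbitRel.Quotient Γ V)) (o : V)
    (hsub : ∀ ε : ℝ, 0 < ε → ∀ r₀ : ℕ, ∃ r : ℕ, r₀ ≤ r ∧
      ({v | G.dist o v ≤ r}.ncard : ℝ) ≤ Real.exp (ε * r))
    (hgro : ∃ c : ℝ, 0 < c ∧ ∃ r₀ : ℕ, ∀ r : ℕ, r₀ ≤ r →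
      Real.exp (c * Real.sqrt r) ≤ ({v | G.dist o v ≤ r}.ncard : ℝ)) :
    pc G < 1 ∧ ProbabilityTheory.setBernoulli G.edgeSet (pc G) (HasInfiniteCluster V) = 0 := by
  classical
  have hs : ∀ e, e ∈ G.edgeSet ↔ IsE (fun v => G.neighborFinset v) e := by
    intro e
    induction e using Sym2.ind with
    | h a b =>
      refine ⟨fun h => ⟨a, b, (G.mem_neighborFinset _ _).2 h, rfl⟩, fun ⟨x, y, h, h'⟩ => ?_⟩
      rw [h']
      exact (G.mem_neighborFinset _ _).1 h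
  have hV : Countable V := by
    refine Set.countable_univ_iff.1 ((Set.countable_iUnion fun n : ℕ =>
      (ball (fun v => G.neighborFinset v) n o).countable_toSet).mono fun u _ => ?_)
    exact Set.mem_iUnion.2 (fn_conn G hG o u)
  have hle : ∀ (S : Su V Γ), S.nb = (fun v => G.neighborFinset v) → ∀ (p c : ℝ) (h0 : 0 ≤ p)
      (h1 : p ≤ 1), 0 < c → Far S.nb S.o (fun _ => p) c → (pc G : ℝ) ≤ p := by
    intro S hS p c h0 h1 hc hf
    have : pc G ≤ ⟨p, h0, h1⟩ :=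
      sInf_le (fn_pos S.hnb (by rw [hS]; exact hs) S.conn ⟨p, h0, h1⟩ hc hf)
    exact this
  have hlt : (pc G : ℝ) < 1 := by
    obtain ⟨S, hS, -⟩ := su_exists G hG hact hqt o hsub hgro o
    obtain ⟨p, c, h0, h1, hc, hf⟩ := core S one_pos le_rfl one_pos (final_one S)
    exact (hle S hS p c h0 h1.le hc hf).trans_lt h1
  refine ⟨hlt, ?_⟩
  have hU : HasInfiniteCluster V = ⋃ o, {ω | (cluster ω o).Infinite} := by
    ext ω
    simp [HasInfiniteCluster]
  rw [hU, MeasureTheory.measure_iUnion_null_iff]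
  intro x
  by_contra h0
  obtain ⟨S, hS, rfl⟩ := su_exists G hG hact hqt o hsub hgro x
  have hθ := ENNReal.toReal_pos h0 (MeasureTheory.measure_ne_top _ _)
  have hf := fn_far (o := S.o) S.hnb (s := G.edgeSet) (by rw [hS]; exact hs) (pc G)
  rcases (pc G).2.1.eq_or_lt with hp | hp
  · rw [← hp] at hf
    exact (final_zero hf).not_gt hθ
  · obtain ⟨p, c, h1, h2, hc, hf'⟩ := core S hp hlt.le hθ hf
    exact (hle S hS p c h1 (h2.le.trans hlt.le) hc hf').not_gt h2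

end Vale.Agent.P151G
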