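import Vale.Agent.P151G.RaysB

/-! Spreading a measure along chains. -/

namespace Vale.Agent.P151G

open Vale.Agent.P151

variable {V Γ : Type*} [DecidableEq V] [Group Γ] [MulAction Γ V]

theorem rays (S : Su V Γ) (k ρ : ℕ) (A : Finset V) (ν : V → ℝ) {α α' : ℝ}
    (hν : ∀ y, 0 ≤ ν y ∧ ν y ≤ α) (hA : ∑ y ∈ A, ν y = 1)
    (hα' : ∀ y, 1 / ((ball S.nb (k * ρ) y).card : ℝ) ≤ α') :
    ∃ (I : Finset (Fin (k + 1) → V)) (W : (Fin (k + 1) → V) → ℝ), (∀ c, 0 ≤ W c) ∧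
      (∀ c ∈ I, ∀ i : Fin k, c i.succ ∈ ball S.nb ρ (c i.castSucc)) ∧
      (∀ g : V → ℝ, ∑ c ∈ I, W c * g (c 0) = ∑ y ∈ A, ν y * g y) ∧
      (∀ z, ∑ c ∈ I, W c * ind (c (Fin.last k) = z) ≤ α') ∧
      (∀ i v, ∑ c ∈ I, W c * ind (c i = v) ≤ S.C₀ * α) := by
  classical
  have key : ∀ f : (Fin (k + 1) → V) → ℝ,
      ∑ c ∈ A.biUnion (Ch S.nb k ρ), ν (c 0) * cw S.nb k ρ c * f c =
        ∑ y ∈ A, ν y * ∑ c ∈ Ch S.nb k ρ y, cw S.nb k ρ c * f c := by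
    intro f
    rw [Finset.sum_biUnion]
    · refine Finset.sum_congr rfl fun y _ => ?_
      rw [Finset.mul_sum]
      refine Finset.sum_congr rfl fun c hc => ?_
      rw [(mem_Ch.1 hc).1, mul_assoc]
    · intro y _ y' _ hne
      refine Finset.disjoint_left.2 fun c h1 h2 => hne ?_
      exact (mem_Ch.1 h1).1.symm.trans (mem_Ch.1 h2).1
  refine ⟨A.biUnion (Ch S.nb k ρ), fun c => ν (c 0) * cw S.nb k ρ c,
    fun c => mul_nonneg (hν _).1 (cw_nonneg c), fun c hc => ?_, fun g => ?_, fun z => ?_,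
    fun i v => ?_⟩
  · obtain ⟨y, -, hy⟩ := Finset.mem_biUnion.1 hc
    exact (mem_Ch.1 hy).2
  · rw [key fun c => g (c 0)]
    refine Finset.sum_congr rfl fun y _ => ?_
    have e : ∑ c ∈ Ch S.nb k ρ y, cw S.nb k ρ c * g (c 0) =
        (∑ c ∈ Ch S.nb k ρ y, cw S.nb k ρ c) * g y := by
      rw [Finset.sum_mul]
      exact Finset.sum_congr rfl fun c hc => by rw [(mem_Ch.1 hc).1]
    rw [e, ch_total, one_mul]
  · rw [key fun c => ind (c (Fin.last k) = z)]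
    calc _ ≤ ∑ y ∈ A, ν y * α' := Finset.sum_le_sum fun y _ =>
          mul_le_mul_of_nonneg_left ((ch_atom y z).trans (hα' y)) (hν y).1
      _ = α' := by rw [← Finset.sum_mul, hA, one_mul]
  · rw [key fun c => ind (c i = v)]
    have hα : 0 ≤ α := (hν v).1.trans (hν v).2
    calc _ ≤ ∑ y ∈ A, α * ∑ c ∈ Ch S.nb k ρ y, cw S.nb k ρ c * ind (c i = v) :=
          Finset.sum_le_sum fun y _ => mul_le_mul_of_nonneg_right (hν y).2
            (Finset.sum_nonneg fun c _ => mul_nonneg (cw_nonneg c) (ind_nonneg _))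
      _ ≤ α * S.C₀ := by
          rw [← Finset.mul_sum]
          exact mul_le_mul_of_nonneg_left (ch_in S k ρ A i v) hα
      _ = S.C₀ * α := mul_comm _ _

end Vale.Agent.P151G
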