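import Vale.Agent.P151G.Defs

/-! Chains and their weights. -/

namespace Vale.Agent.P151G

open Vale.Agent.P151

variable {V : Type*} [DecidableEq V] {nb : V → Finset V} {k ρ : ℕ} {y z : V}

theorem ch_ball {c : Fin (k + 1) → V}
    (h : ∀ i : Fin k, c i.succ ∈ ball nb ρ (c i.castSucc)) (i : Fin (k + 1)) :
    c i ∈ ball nb (k * ρ) (c 0) := by
  have key : ∀ j : Fin (k + 1), c j ∈ ball nb (j.val * ρ) (c 0) := by
    intro j
    induction j using Fin.induction with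
    | zero => exact mem_ball_self
    | succ j ih =>
      rw [Fin.val_succ, Nat.succ_mul]
      exact ball_trans ih (h j)
  exact ball_le (Nat.mul_le_mul_right ρ (Nat.lt_succ_iff.1 i.2)) (key i)

theorem mem_Ch {c : Fin (k + 1) → V} :
    c ∈ Ch nb k ρ y ↔ c 0 = y ∧ ∀ i : Fin k, c i.succ ∈ ball nb ρ (c i.castSucc) := by
  unfold Ch
  rw [Finset.mem_filter]
  exact ⟨fun h => h.2, fun h => ⟨Fintype.mem_piFinset.2 fun i => h.1 ▸ ch_ball h.2 i, h⟩⟩

theorem raysa_seq (k : ℕ) : ∀ z, z ∈ ball nb (k * ρ) y →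
    ∃ d : ℕ → V, d 0 = y ∧ d k = z ∧ ∀ i < k, d (i + 1) ∈ ball nb ρ (d i) := by
  induction k with
  | zero =>
    intro z hz
    rw [Nat.zero_mul] at hz
    exact ⟨fun _ => y, rfl, (mem_ball_zero.1 hz).symm, fun i hi => absurd hi (Nat.not_lt_zero i)⟩
  | succ k ih =>
    intro z hz
    rw [Nat.succ_mul] at hz
    obtain ⟨a, ha, hza⟩ := mem_ball_add.1 hz
    obtain ⟨d, d0, d1, d2⟩ := ih a ha
    refine ⟨Function.update d (k + 1) z, ?_, Function.update_self _ _ _, fun i hi => ?_⟩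
    · rw [Function.update_of_ne (by omega), d0]
    · rw [Function.update_of_ne (a := i) (by omega)]
      rcases (Nat.lt_succ_iff.1 hi).eq_or_lt with rfl | h
      · rw [Function.update_self, d1]
        exact hza
      · rw [Function.update_of_ne (by omega)]
        exact d2 i h

theorem ch_exists (h : z ∈ ball nb (k * ρ) y) : ∃ c ∈ Ch nb k ρ y, c (Fin.last k) = z := by
  obtain ⟨d, d0, d1, d2⟩ := raysa_seq k z h
  exact ⟨fun i => d i.val, mem_Ch.2 ⟨d0, fun i => d2 i.val i.2⟩, d1⟩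

theorem cw_nonneg (c : Fin (k + 1) → V) : 0 ≤ cw nb k ρ c := by
  unfold cw
  positivity

theorem raysa_fib (y z : V) :
    ∑ c ∈ (Ch nb k ρ y).filter (fun c => c (Fin.last k) = z), cw nb k ρ c =
      (((Ch nb k ρ y).filter (fun c => c (Fin.last k) = z)).card : ℝ) *
        (1 / ((((Ch nb k ρ y).filter (fun c => c (Fin.last k) = z)).card : ℝ) *
          (ball nb (k * ρ) y).card)) := by
  rw [← nsmul_eq_mul, ← Finset.sum_const]
  refine Finset.sum_congr rfl fun c hc => ?_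
  obtain ⟨h1, h2⟩ := Finset.mem_filter.1 hc
  unfold cw
  rw [(mem_Ch.1 h1).1, h2]

theorem ch_atom (y z : V) : ∑ c ∈ Ch nb k ρ y, cw nb k ρ c * ind (c (Fin.last k) = z) ≤
    1 / ((ball nb (k * ρ) y).card : ℝ) := by
  have e : ∑ c ∈ Ch nb k ρ y, cw nb k ρ c * ind (c (Fin.last k) = z) =
      ∑ c ∈ (Ch nb k ρ y).filter (fun c => c (Fin.last k) = z), cw nb k ρ c := by
    rw [Finset.sum_filter]
    refine Finset.sum_congr rfl fun c _ => ?_
    by_cases h : c (Fin.last k) = z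
    · rw [ind_pos h, if_pos h, mul_one]
    · rw [ind_neg h, if_neg h, mul_zero]
  rw [e, raysa_fib]
  rcases eq_or_ne (((Ch nb k ρ y).filter (fun c => c (Fin.last k) = z)).card : ℝ) 0 with h | h
  · rw [h, zero_mul]
    positivity
  · rw [mul_one_div, div_mul_cancel_left₀ h, one_div]

theorem ch_total (y : V) : ∑ c ∈ Ch nb k ρ y, cw nb k ρ c = 1 := by
  have hm : ∀ c ∈ Ch nb k ρ y, c (Fin.last k) ∈ ball nb (k * ρ) y := fun c hc =>
    (mem_Ch.1 hc).1 ▸ ch_ball (mem_Ch.1 hc).2 _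
  have hN : ((ball nb (k * ρ) y).card : ℝ) ≠ 0 :=
    Nat.cast_ne_zero.2 (Finset.card_pos.2 ⟨y, mem_ball_self⟩).ne'
  rw [← Finset.sum_fiberwise_of_maps_to hm,
    Finset.sum_congr rfl (g := fun _ => ((ball nb (k * ρ) y).card : ℝ)⁻¹) fun z hz => ?_,
    Finset.sum_const, nsmul_eq_mul, mul_inv_cancel₀ hN]
  obtain ⟨c, hc, hz⟩ := ch_exists hz
  have h : (((Ch nb k ρ y).filter (fun c => c (Fin.last k) = z)).card : ℝ) ≠ 0 :=
    Nat.cast_ne_zero.2 (Finset.card_pos.2 ⟨c, Finset.mem_filter.2 ⟨hc, hz⟩⟩).ne'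
  rw [raysa_fib, mul_one_div, div_mul_cancel_left₀ h]

end Vale.Agent.P151G
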