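import Vale.Agent.P151G.RaysA
import Vale.Agent.P151G.Mtp

/-! The mass of chains through a vertex. -/

namespace Vale.Agent.P151G

open Vale.Agent.P151

variable {V Γ : Type*} [DecidableEq V] [Group Γ] [MulAction Γ V]

namespace RaysB

/-- The mass of the chains from `y` whose `i`-th point is `v`. -/
noncomputable def h (nb : V → Finset V) (k ρ : ℕ) (i : Fin (k + 1)) (y v : V) : ℝ :=
  ∑ c ∈ Ch nb k ρ y, cw nb k ρ c * ind (c i = v)

theorem h_nonneg (nb : V → Finset V) (k ρ : ℕ) (i : Fin (k + 1)) (y v : V) :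
    0 ≤ h nb k ρ i y v :=
  Finset.sum_nonneg fun c _ => mul_nonneg (cw_nonneg c) (ind_nonneg _)

theorem h_zero (S : Su V Γ) {k ρ : ℕ} (i : Fin (k + 1)) {y v : V}
    (hy : y ∉ ball S.nb (k * ρ) v) : h S.nb k ρ i y v = 0 := by
  refine Finset.sum_eq_zero fun c hc => ?_
  obtain ⟨h1, h2⟩ := mem_Ch.1 hc
  rw [ind_neg, mul_zero]
  rintro rfl
  exact hy (h1 ▸ ball_symm S.hnb (ch_ball h2 i))

theorem h_sum (nb : V → Finset V) (k ρ : ℕ) (i : Fin (k + 1)) (y : V) (B : Finset V) :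
    ∑ u ∈ B, h nb k ρ i y u ≤ 1 := by
  unfold h
  rw [Finset.sum_comm, ← ch_total (nb := nb) (k := k) (ρ := ρ) y]
  refine Finset.sum_le_sum fun c _ => ?_
  rw [← Finset.mul_sum]
  refine mul_le_of_le_one_right (cw_nonneg c) ?_
  by_cases hc : c i ∈ B
  · rw [Finset.sum_eq_single_of_mem _ hc fun u _ hu => ind_neg (Ne.symm hu)]
    exact ind_le_one _
  · rw [Finset.sum_eq_zero fun u hu => ind_neg fun e : c i = u => hc (e ▸ hu)]
    exact zero_le_one

theorem ch_smul (S : Su V Γ) (γ : Γ) (k ρ : ℕ) (y : V) :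
    Ch S.nb k ρ (γ • y) = (Ch S.nb k ρ y).image fun c => γ • c := by
  ext c
  rw [Finset.mem_image, mem_Ch]
  constructor
  · rintro ⟨h1, h2⟩
    refine ⟨γ⁻¹ • c, mem_Ch.2 ⟨?_, fun j => S.smul_mem_ball γ⁻¹ (h2 j)⟩, smul_inv_smul γ c⟩
    rw [Pi.smul_apply, h1, inv_smul_smul]
  · rintro ⟨d, hd, rfl⟩
    obtain ⟨h1, h2⟩ := mem_Ch.1 hd
    exact ⟨by rw [Pi.smul_apply, h1], fun j => S.smul_mem_ball γ (h2 j)⟩

theorem cw_smul (S : Su V Γ) (γ : Γ) {k ρ : ℕ} (c : Fin (k + 1) → V) :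
    cw S.nb k ρ (γ • c) = cw S.nb k ρ c := by
  classical
  unfold cw
  simp only [Pi.smul_apply]
  rw [S.card_ball_smul, ch_smul, Finset.filter_image,
    Finset.card_image_of_injective _ (MulAction.injective γ)]
  simp only [Pi.smul_apply, smul_left_cancel_iff]

theorem h_smul (S : Su V Γ) (γ : Γ) {k ρ : ℕ} (i : Fin (k + 1)) (y v : V) :
    h S.nb k ρ i (γ • y) (γ • v) = h S.nb k ρ i y v := by
  unfold h
  rw [ch_smul, Finset.sum_image fun a _ b _ e => MulAction.injective γ e]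
  refine Finset.sum_congr rfl fun c _ => ?_
  exact congrArg₂ _ (cw_smul S γ c) (ind_congr (smul_left_cancel_iff γ))

theorem le_g (S : Su V Γ) {k ρ : ℕ} (i : Fin (k + 1)) (A : Finset V) (v : V) :
    ∑ y ∈ A, h S.nb k ρ i y v ≤ ∑ y ∈ ball S.nb (k * ρ) v, h S.nb k ρ i y v := by
  rw [← Finset.sum_filter_add_sum_filter_not A (· ∈ ball S.nb (k * ρ) v),
    Finset.sum_eq_zero fun y hy => h_zero S i (Finset.mem_filter.1 hy).2, add_zero]
  exact Finset.sum_le_sum_of_subset_of_nonneg (fun y hy => (Finset.mem_filter.1 hy).2)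
    fun y _ _ => h_nonneg _ _ _ _ _ _

end RaysB

theorem ch_in (S : Su V Γ) (k ρ : ℕ) (A : Finset V) (i : Fin (k + 1)) (v : V) :
    ∑ y ∈ A, ∑ c ∈ Ch S.nb k ρ y, cw S.nb k ρ c * ind (c i = v) ≤ S.C₀ := by
  obtain ⟨R, hR⟩ := mtp_le S (k * ρ)
  refine (RaysB.le_g S i A v).trans ((hR 1
    (fun v => ∑ y ∈ ball S.nb (k * ρ) v, RaysB.h S.nb k ρ i y v) zero_le_one
    (fun v => Finset.sum_nonneg fun y _ => RaysB.h_nonneg _ _ _ _ _ _) (fun γ v => ?_) ?_ v).trans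
    (one_mul _).le)
  · rw [S.ball_smul, Finset.sum_image fun a _ b _ e => MulAction.injective γ e]
    exact Finset.sum_congr rfl fun y _ => RaysB.h_smul S γ i y v
  · calc _ ≤ ∑ u ∈ ball S.nb R S.o, ∑ y ∈ ball S.nb (R + k * ρ) S.o, RaysB.h S.nb k ρ i y u :=
          Finset.sum_le_sum fun u hu => Finset.sum_le_sum_of_subset_of_nonneg
            (fun y hy => ball_trans hu hy) fun y _ _ => RaysB.h_nonneg _ _ _ _ _ _
      _ ≤ ∑ _y ∈ ball S.nb (R + k * ρ) S.o, (1 : ℝ) := by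
          rw [Finset.sum_comm]
          exact Finset.sum_le_sum fun y _ => RaysB.h_sum _ _ _ _ _ _
      _ = _ := by simp

end Vale.Agent.P151G
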