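import Vale.Agent.P151G.Wit

/-! Large balls meet big clusters. -/

namespace Vale.Agent.P151G

open Vale.Agent.P151

variable {V Γ : Type*} [DecidableEq V] [Group Γ] [MulAction Γ V]

theorem seed_smul_le (S : Su V Γ) {p : ℝ} (hp0 : 0 ≤ p) (hp1 : p ≤ 1) (R : ℕ) (γ : Γ) (u : V) :
    seedsT S.nb p R u ≤ seedsT S.nb p R (γ • u) := by
  refine (Ex_smul γ (w' := fun _ => p) (fun _ => ⟨hp0, hp1⟩) (fun _ => rfl) _ _ _).trans ?_
  have e : {v | γ⁻¹ • v ∈ (↑(ball S.nb R u) : Set V)ᶜ} = (↑(ball S.nb R (γ • u)) : Set V)ᶜ := by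
    ext v
    simp only [Set.mem_ofPred_eq, Set.mem_compl_iff, Finset.mem_coe, S.mem_ball_smul']
  rw [e]
  refine seeds_cert S.hnb hp0 hp1 R _ _ fun e he => ?_
  obtain ⟨e', he', rfl⟩ := Finset.mem_image.1 he
  exact (S.isE_smul γ).2 (isE_of_mem_inE he')

theorem seed_smul (S : Su V Γ) {p : ℝ} (hp0 : 0 ≤ p) (hp1 : p ≤ 1) (R : ℕ) (γ : Γ) (u : V) :
    seedsT S.nb p R (γ • u) = seedsT S.nb p R u := by
  refine le_antisymm ?_ (seed_smul_le S hp0 hp1 R γ u)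
  simpa only [inv_smul_smul] using seed_smul_le S hp0 hp1 R γ⁻¹ (γ • u)

theorem seed_next (S : Su V Γ) (s : ℕ) (T : Finset Γ) :
    ∃ γ : Γ, ∀ g ∈ T, Disjoint (ball S.nb s (g • S.o)) (ball S.nb s (γ • S.o)) := by
  obtain ⟨R, hR⟩ := S.large
    ((T.biUnion fun g => ball S.nb (s + s + S.D₀) (g • S.o)).card + 1 : ℕ)
  obtain ⟨u, -, hu⟩ := Finset.exists_mem_notMem_of_card_lt_card
    (Nat.lt_of_succ_le (Nat.cast_le.1 (hR S.o)))
  obtain ⟨γ, hγ⟩ := S.near u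
  refine ⟨γ, fun g hg => Finset.disjoint_left.2 fun v h1 h2 => hu ?_⟩
  exact Finset.mem_biUnion.2 ⟨g, hg, ball_trans (ball_trans h1 (ball_symm S.hnb h2)) hγ⟩

theorem seed_far (S : Su V Γ) (s : ℕ) :
    ∃ g : ℕ → Γ, ∀ i j, i ≠ j → Disjoint (ball S.nb s (g i • S.o)) (ball S.nb s (g j • S.o)) := by
  obtain ⟨g, -, hg⟩ := exists_seq_of_forall_finset_exists (fun _ : Γ => True)
    (fun a b => Disjoint (ball S.nb s (a • S.o)) (ball S.nb s (b • S.o)))
    fun T _ => (seed_next S s T).imp fun _ h => ⟨trivial, h⟩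
  refine ⟨g, fun i j hij => ?_⟩
  rcases lt_or_gt_of_ne hij with h | h
  · exact hg i j h
  · exact (hg j i h).symm

theorem seed (S : Su V Γ) {p θ δ : ℝ} (hp0 : 0 ≤ p) (hp1 : p ≤ 1) (hθ : 0 < θ) (hδ : 0 < δ)
    (h : Far S.nb S.o (fun _ => p) θ) : ∃ r, ∀ N,
      Lb (fun _ => p) (IsE S.nb) (fun ω => ind (BigU S.nb r N S.o ω)) (1 - δ) := by
  have hw : Wt (fun _ : Sym2 V => p) := fun _ => ⟨hp0, hp1⟩
  have hθt : ∀ R, θ ≤ seedsT S.nb p R S.o := fun R =>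
    let ⟨F, h1, h2⟩ := h R; h2.trans (seeds_cert S.hnb hp0 hp1 R _ F h1)
  have ht1 : ∀ R, seedsT S.nb p R S.o ≤ 1 := fun R => Ex_le hw fun _ _ => hit_le_one
  obtain ⟨k, hk⟩ := exists_pow_lt_of_lt_one (half_pos hδ) (show 1 - θ < 1 by linarith)
  have hbdd : BddBelow (Set.range fun R => seedsT S.nb p R S.o) :=
    ⟨θ, by rintro _ ⟨R, rfl⟩; exact hθt R⟩
  obtain ⟨s, hs⟩ := exists_lt_of_ciInf_lt (f := fun R => seedsT S.nb p R S.o)
    (lt_add_of_pos_right _ (show 0 < δ / 2 / (k + 1) by positivity))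
  obtain ⟨g, hg⟩ := seed_far S (s + 1)
  obtain ⟨r, hr⟩ : ∃ r, ∀ i ∈ Finset.range k, g i • S.o ∈ ball S.nb r S.o := by
    choose n hn using S.conn
    exact ⟨∑ i ∈ Finset.range k, n (g i • S.o), fun i hi => ball_le
      (Finset.single_le_sum (f := fun i => n (g i • S.o)) (fun _ _ => Nat.zero_le _) hi) (hn _)⟩
  refine ⟨r, fun N => ?_⟩
  set R' := N + s with hR'
  set F := (Finset.range k).biUnion (fun i => inE S.nb (ball S.nb (R' + 1) (g i • S.o))) ∪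
    inE S.nb (ball S.nb r S.o) with hF
  have hFE : ∀ e ∈ F, IsE S.nb e := fun e he => (Finset.mem_union.1 he).elim
    (fun h1 => let ⟨_, _, h2⟩ := Finset.mem_biUnion.1 h1; isE_of_mem_inE h2) isE_of_mem_inE
  have hsub : ∀ i ∈ Finset.range k, inE S.nb (ball S.nb (R' + 1) (g i • S.o)) ⊆ F := fun i hi =>
    (Finset.subset_biUnion_of_mem (fun i => inE S.nb (ball S.nb (R' + 1) (g i • S.o))) hi).trans
      Finset.subset_union_left
  have hsub' : ∀ i ∈ Finset.range k, inE S.nb (ball S.nb (s + 1) (g i • S.o)) ⊆ F := fun i hi =>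
    (inE_mono (ball_le (by omega))).trans (hsub i hi)
  have hA : ∀ i ∈ Finset.range k, Ex (fun _ => p) F
      (hit (g i • S.o) (↑(ball S.nb s (g i • S.o)) : Set V)ᶜ) = seedsT S.nb p s S.o := fun i hi =>
    (seeds_eq S.hnb p s _ F hFE (hsub' i hi)).trans (seed_smul S hp0 hp1 s _ _)
  have hB : ∀ i ∈ Finset.range k, Ex (fun _ => p) F
      (hit (g i • S.o) (↑(ball S.nb R' (g i • S.o)) : Set V)ᶜ) = seedsT S.nb p R' S.o :=
    fun i hi => (seeds_eq S.hnb p R' _ F hFE (hsub i hi)).trans (seed_smul S hp0 hp1 R' _ _)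
  have hprod : Ex (fun _ => p) F (fun ω => ∏ i ∈ Finset.range k,
      (1 - hit (g i • S.o) (↑(ball S.nb s (g i • S.o)) : Set V)ᶜ ω)) ≤ (1 - θ) ^ k := by
    have e1 : ∀ ω ⊆ F, ∀ i, hit (g i • S.o) (↑(ball S.nb s (g i • S.o)) : Set V)ᶜ ω =
        hit (g i • S.o) (↑(ball S.nb s (g i • S.o)) : Set V)ᶜ
          (ω ∩ inE S.nb (ball S.nb (s + 1) (g i • S.o))) := fun ω hω i =>
      seeds_exit S.hnb s _ ω fun e he => hFE e (hω he)
    rw [Ex_congr fun ω hω => Finset.prod_congr rfl fun i _ => by rw [e1 ω hω i],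
      seeds_Ex_prod (Finset.range k) (fun i => inE S.nb (ball S.nb (s + 1) (g i • S.o))) _ F
        (fun i ω => 1 - hit (g i • S.o) (↑(ball S.nb s (g i • S.o)) : Set V)ᶜ ω)
        (fun i _ j _ hij => Finset.disjoint_left.2 fun e h1 h2 =>
          Finset.disjoint_left.1 (hg i j hij) (mem_of_mem_inE h1 (Sym2.out_fst_mem e))
            (mem_of_mem_inE h2 (Sym2.out_fst_mem e))),
      Finset.prod_congr rfl fun i hi => by
        rw [← Ex_congr fun ω hω => by rw [← e1 ω hω i], Ex_sub, Ex_const, hA i hi],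
      Finset.prod_const, Finset.card_range]
    exact pow_le_pow_left₀ (sub_nonneg.2 (ht1 s)) (sub_le_sub_left (hθt s) 1) k
  have hsum : Ex (fun _ => p) F (fun ω => ∑ i ∈ Finset.range k,
      (hit (g i • S.o) (↑(ball S.nb s (g i • S.o)) : Set V)ᶜ ω -
        hit (g i • S.o) (↑(ball S.nb R' (g i • S.o)) : Set V)ᶜ ω)) ≤ δ / 2 := by
    rw [Ex_sum, Finset.sum_congr rfl fun i hi => by rw [Ex_sub, hA i hi, hB i hi],
      Finset.sum_const, Finset.card_range, nsmul_eq_mul]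
    have h1 : seedsT S.nb p s S.o - seedsT S.nb p R' S.o ≤ δ / 2 / (k + 1) := by
      linarith [ciInf_le hbdd R']
    calc (k : ℝ) * _ ≤ k * (δ / 2 / (k + 1)) := mul_le_mul_of_nonneg_left h1 (Nat.cast_nonneg k)
      _ ≤ (k + 1) * (δ / 2 / (k + 1)) :=
          mul_le_mul_of_nonneg_right (by linarith) (by positivity)
      _ = δ / 2 := by field_simp
  have hmain := Ex_mono (F := F) hw fun ω _ => seeds_ind_le (Finset.range k)
    (fun i => g i • S.o ∈ Cl ω (↑(ball S.nb s (g i • S.o)) : Set V)ᶜ)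
    (fun i => g i • S.o ∈ Cl ω (↑(ball S.nb R' (g i • S.o)) : Set V)ᶜ)
    (fun i hi => Cl_mono subset_rfl (Set.compl_subset_compl.2
      (Finset.coe_subset.2 (ball_le (show s ≤ R' by omega)))) hi)
  rw [Ex_sub, Ex_sub, Ex_const] at hmain
  refine ⟨F, hFE, ?_⟩
  refine le_trans (by unfold hit at hprod hsum; linarith) (hmain.trans ?_)
  refine Ex_mono hw fun ω hω => ind_mono fun ⟨i, hi, h1⟩ => ?_
  exact ⟨_, hr i hi, (big_of_exit S.hnb (fun e he => hFE e (hω he)) h1).le (by omega)⟩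

end Vale.Agent.P151G
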