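import Vale.Agent.P151G.StepB
import Vale.Agent.P151G.Rays
import Vale.Agent.P151G.Surg

/-! The induction step. -/

namespace Vale.Agent.P151G

open Vale.Agent.P151

variable {V Γ : Type*} [DecidableEq V] [Group Γ] [MulAction Γ V]

theorem step_num {K r B a C t : ℝ} (hK : 0 ≤ K) (hr : 0 ≤ r) (hB : 1 ≤ B) (ha : 0 ≤ a)
    (hC : 1 ≤ C) (h : (K + 1) * (r + 1) * (B * (a + 2 * C)) ≤ t) :
    2 * B * C ≤ t ∧ K + 1 ≤ t ∧ K * B * r * a ≤ t := by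
  have h0 : 0 ≤ B := by linarith
  have h1 : 1 ≤ B * C := one_le_mul_of_one_le_of_one_le hB hC
  have h2 : 0 ≤ B * a := by positivity
  have h3 : 0 ≤ K * r := by positivity
  have h4 : 1 ≤ B * (a + 2 * C) := by nlinarith
  refine ⟨?_, ?_, ?_⟩
  · have : 1 * (B * (a + 2 * C)) ≤ (K + 1) * (r + 1) * (B * (a + 2 * C)) :=
      mul_le_mul_of_nonneg_right (by nlinarith) (by linarith)
    nlinarith
  · have : (K + 1) * (r + 1) * 1 ≤ (K + 1) * (r + 1) * (B * (a + 2 * C)) :=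
      mul_le_mul_of_nonneg_left h4 (by positivity)
    nlinarith
  · have : K * r * (B * a) ≤ (K + 1) * (r + 1) * (B * (a + 2 * C)) :=
      mul_le_mul (by nlinarith) (by nlinarith) h2 (by positivity)
    nlinarith

theorem step (S : Su V Γ) {lo p q ε : ℝ} (hlo : 0 < lo) (hp0 : lo ≤ p) (hp1 : p ≤ 1)
    (m t k ρ : ℕ) (ht : 2 ≤ t) (hq0 : 0 ≤ q) (hq1 : q ≤ 1) (hε : ε ≤ q)
    (h1 : (1 / lo) ^ (ρ + 2 * m) ≤ t) (h2 : ((k : ℝ) + 1) * (ρ + 2 * m + 1) * S.M lo m ≤ t)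
    (h3 : 1 / (t : ℝ) ≤ (1 - q) ^ (k + 1))
    (h4 : ∀ y, (t : ℝ) ^ 90 ≤ (ball S.nb (k * ρ) y).card) (h : Hyp S.nb p m t ε) :
    Hyp S.nb p m (t ^ 3) (ε + 6 / t) := by
  intro x
  have hw : Wt (fun _ : Sym2 V => p) := fun _ => ⟨hlo.le.trans hp0, hp1⟩
  have ht2 : (2 : ℝ) ≤ t := by exact_mod_cast ht
  have ht0 : (0 : ℝ) < t := by linarith
  have hB1 : (1 : ℝ) ≤ (((S.Δ : ℝ) + 1) ^ m) ^ 2 :=
    one_le_pow₀ (one_le_pow₀ (by linarith [(Nat.cast_nonneg S.Δ : (0 : ℝ) ≤ _)]))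
  have hC1 := S.C₁_pos
  obtain ⟨n1, n2, n3⟩ := step_num (K := k) (r := ρ + 2 * m) (Nat.cast_nonneg k) (by positivity) hB1
    (div_pos hC1 hlo).le S.one_le_C₀ h2
  have n4 : 2 * (((S.Δ : ℝ) + 1) ^ m) ^ 2 ≤ t :=
    (le_mul_of_one_le_right (by positivity) S.one_le_C₀).trans n1
  obtain ⟨A, ν, hν, hA, hL⟩ := h x
  obtain ⟨I, W, hW, hch, hst, hat, hin⟩ := rays S k ρ A ν (α' := 1 / (t : ℝ) ^ 90) hν hA
    fun y => one_div_le_one_div_of_le (by positivity) (h4 y)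
  have hs : (2 : ℝ) ≤ (t : ℝ) ^ 5 := ht2.trans (le_self_pow₀ (by linarith) (by norm_num))
  have hn : ((t : ℝ) ^ 5) ^ 2 ≤ ((t ^ 10 : ℕ) : ℝ) := le_of_eq (by push_cast; ring)
  have u1 : Ult S.nb fun F => ∀ c ∈ I, ∀ i ∈ (Finset.univ : Finset (Fin (k + 1))),
      1 - ε ≤ Ex (fun _ => p) F (fun ω => ind (BigU S.nb m (t ^ 10) (c i) ω)) :=
    Ult.all I fun c _ => Ult.all _ fun i _ => Ult.of_Lb hw (mono_ind fun _ _ hab h => h.mono hab)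
      (hyp_big S.hnb (hlo.le.trans hp0) hp1 ht n4 h (c i))
  have u2 : Ult S.nb fun F => ∀ c ∈ I, ∀ i ∈ (Finset.univ : Finset (Fin k)),
      ∀ u ∈ ball S.nb m (c i.castSucc), ∀ v ∈ ball S.nb m (c i.succ),
      Ex (fun _ => p) F (fun ω => ind (Tw (t ^ 10) u v ω)) ≤
        (ρ + 2 * m : ℕ) * (1 / lo) ^ (ρ + 2 * m) * (S.C₁ / (lo * (t : ℝ) ^ 5)) :=
    Ult.all I fun c hc => Ult.all _ fun i _ => Ult.all _ fun u hu => Ult.all _ fun v hv =>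
      tw_bound S hlo hp0 hp1 hs hn _ (ball_le (by omega)
        (ball_trans (ball_trans (ball_symm S.hnb hu) (hch c hc i)) hv))
  have u3 := Ult.of_Lb hw (mono_ind fun a b hab h =>
    le_trans h (link_sum_mono A ν (fun y => y) (fun y _ => (hν y).1) hab)) hL
  have hT : k * (((S.Δ : ℝ) + 1) ^ m) ^ 2 * ((ρ + 2 * m : ℕ) * (1 / lo) ^ (ρ + 2 * m) *
      (S.C₁ / (lo * (t : ℝ) ^ 5))) ≤ 1 / (t : ℝ) ^ 3 := by
    have e : k * (((S.Δ : ℝ) + 1) ^ m) ^ 2 * ((ρ + 2 * m : ℕ) * (1 / lo) ^ (ρ + 2 * m) *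
        (S.C₁ / (lo * (t : ℝ) ^ 5))) = (k * (((S.Δ : ℝ) + 1) ^ m) ^ 2 * (ρ + 2 * m) *
          (S.C₁ / lo)) * (1 / lo) ^ (ρ + 2 * m) / (t : ℝ) ^ 5 := by
      push_cast
      field_simp
    rw [e, show 1 / (t : ℝ) ^ 3 = t * t / (t : ℝ) ^ 5 by field_simp]
    exact div_le_div_of_nonneg_right (mul_le_mul n3 h1 (by positivity) ht0.le) (by positivity)
  have e3 : ((t ^ 3 : ℕ) : ℝ) = (t : ℝ) ^ 3 := Nat.cast_pow t 3
  refine ⟨I.image fun c => c (Fin.last k), fun z => ∑ c ∈ I, W c * ind (c (Fin.last k) = z),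
    fun z => ⟨Finset.sum_nonneg fun c _ => mul_nonneg (hW c) (ind_nonneg _), ?_⟩, ?_, ?_⟩
  · rw [e3, ← pow_mul]
    exact hat z
  · have h5 := push_sum I W (fun c => c (Fin.last k)) fun _ => 1
    have h6 := hst fun _ => 1
    simp only [mul_one] at h5 h6
    rw [h5, h6, hA]
  · simp only [push_sum I W fun c => c (Fin.last k), e3]
    refine Ult.to_Lb ((u1.and (u2.and u3)).mono fun F _ hF => ?_)
    exact step_core S.hnb hw F m k t x A ν I W ht hq0 hq1 hν hA hW hst hin h3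
      (by exact_mod_cast n2) S.one_le_C₀ n1 (by positivity) hT
      (fun c hc i => le_trans (by linarith) (hF.1 c hc i (Finset.mem_univ i)))
      (fun c hc i => hF.2.1 c hc i (Finset.mem_univ i)) hF.2.2

end Vale.Agent.P151G
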