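import Vale.Agent.P151G.Defs

/-! Small facts for the induction step. -/

namespace Vale.Agent.P151G

open Vale.Agent.P151

variable {V : Type*} [DecidableEq V] {nb : V → Finset V} {Δ m n k : ℕ}

/-- A chain has two consecutive balls meeting distinct big clusters. -/
def Taint (nb : V → Finset V) (m n : ℕ) {k : ℕ} (c : Fin (k + 1) → V) (ω : Finset (Sym2 V)) :
    Prop :=
  ∃ i : Fin k, ∃ u ∈ ball nb m (c i.castSucc), ∃ v ∈ ball nb m (c i.succ), Tw n u v ω

theorem chain_link {x : V} {c : Fin (k + 1) → V} {ω : Finset (Sym2 V)}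
    (h1 : LinkB nb m n x (c 0) ω) (h2 : AllB nb m n (Finset.univ.image c) ω)
    (h3 : ¬ Taint nb m n c ω) : Link nb m x (c (Fin.last k)) ω := by
  obtain ⟨u, hu, v, hv, hc, hb⟩ := h1
  have key : ∀ i : Fin (k + 1), ∃ v ∈ ball nb m (c i), Conn ω u v := by
    intro i
    induction i using Fin.induction with
    | zero => exact ⟨v, hv, hc⟩
    | succ i ih =>
      obtain ⟨a, ha, hua⟩ := ih
      obtain ⟨b, hb', hbb⟩ := h2 (c i.succ) (Finset.mem_image_of_mem c (Finset.mem_univ _))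
      refine ⟨b, hb', hua.trans ?_⟩
      by_contra hn
      exact h3 ⟨i, a, ha, b, hb', hb.conn hua, hbb, hn⟩
  obtain ⟨z, hz, hz'⟩ := key (Fin.last k)
  exact ⟨u, hu, z, hz, hz'⟩

omit [DecidableEq V] in
theorem stepa_ex {κ : Type*} (I : Finset κ) (P : κ → Prop) :
    ind (∃ i ∈ I, P i) ≤ ∑ i ∈ I, ind (P i) := by
  by_cases h : ∃ i ∈ I, P i
  · obtain ⟨i, hi, hP⟩ := h
    refine (ind_le_one _).trans ?_
    rw [← ind_pos hP]
    exact Finset.single_le_sum (f := fun i => ind (P i)) (fun _ _ => ind_nonneg _) hi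
  · rw [ind_neg h]
    exact Finset.sum_nonneg fun _ _ => ind_nonneg _

theorem taint_le (hnb : Nb nb Δ) {w : Sym2 V → ℝ} (hw : Wt w) (F : Finset (Sym2 V))
    (c : Fin (k + 1) → V) {T : ℝ} (hT : 0 ≤ T)
    (h : ∀ i : Fin k, ∀ u ∈ ball nb m (c i.castSucc), ∀ v ∈ ball nb m (c i.succ),
      Ex w F (fun ω => ind (Tw n u v ω)) ≤ T) :
    Ex w F (fun ω => ind (Taint nb m n c ω)) ≤ k * (((Δ : ℝ) + 1) ^ m) ^ 2 * T := by
  have hb : ∀ y, ((ball nb m y).card : ℝ) ≤ ((Δ : ℝ) + 1) ^ m := fun y => by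
    exact_mod_cast card_ball (n := m) (u := y) hnb
  have h1 : ∀ ω, ind (Taint nb m n c ω) ≤ ∑ i : Fin k, ∑ u ∈ ball nb m (c i.castSucc),
      ∑ v ∈ ball nb m (c i.succ), ind (Tw n u v ω) := fun ω => by
    refine (ind_mono (Q := ∃ i ∈ (Finset.univ : Finset (Fin k)), ∃ u ∈ ball nb m (c i.castSucc),
      ∃ v ∈ ball nb m (c i.succ), Tw n u v ω) fun ⟨i, hi⟩ => ⟨i, Finset.mem_univ _, hi⟩).trans ?_
    exact (stepa_ex _ _).trans (Finset.sum_le_sum fun i _ =>
      (stepa_ex _ _).trans (Finset.sum_le_sum fun u _ => stepa_ex _ _))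
  refine (Ex_mono hw fun ω _ => h1 ω).trans ?_
  rw [Ex_sum]
  refine (Finset.sum_le_card_nsmul _ _ ((((Δ : ℝ) + 1) ^ m) ^ 2 * T) fun i _ => ?_).trans_eq ?_
  · rw [Ex_sum]
    refine (Finset.sum_le_card_nsmul _ _ (((Δ : ℝ) + 1) ^ m * T) fun u hu => ?_).trans ?_
    · rw [Ex_sum]
      refine (Finset.sum_le_card_nsmul _ _ T fun v hv => h i u hu v hv).trans ?_
      rw [nsmul_eq_mul]
      exact mul_le_mul_of_nonneg_right (hb _) hT
    · rw [nsmul_eq_mul, sq, mul_assoc]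
      exact mul_le_mul_of_nonneg_right (hb _) (by positivity)
  · rw [Finset.card_univ, Fintype.card_fin, nsmul_eq_mul, mul_assoc]

theorem allB_ge {w : Sym2 V → ℝ} (hw : Wt w) (F : Finset (Sym2 V)) (A : Finset V) (K : ℕ)
    {q : ℝ} (hq0 : 0 ≤ q) (hq1 : q ≤ 1) (hK : A.card ≤ K)
    (h : ∀ y ∈ A, 1 - q ≤ Ex w F (fun ω => ind (BigU nb m n y ω))) :
    (1 - q) ^ K ≤ Ex w F (fun ω => ind (AllB nb m n A ω)) := by
  have h0 : 0 ≤ 1 - q := sub_nonneg.2 hq1
  refine (pow_le_pow_of_le_one h0 (by linarith) hK).trans ?_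
  clear hK
  induction A using Finset.induction_on with
  | empty => exact le_Ex hw fun ω _ => by rw [ind_pos (by simp [AllB])]; simp
  | insert y A hy ih =>
    have e : ∀ ω, ind (AllB nb m n (insert y A) ω) =
        ind (BigU nb m n y ω) * ind (AllB nb m n A ω) := fun ω => by
      rw [← ind_and]
      exact ind_congr (Finset.forall_mem_insert _ _ _)
    simp only [e]
    rw [Finset.card_insert_of_notMem hy, pow_succ']
    refine le_trans ?_ (Ex_fkg hw (mono_ind fun _ _ hab h => h.mono hab)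
      (mono_ind fun _ _ hab h => h.mono hab))
    exact mul_le_mul (h y (Finset.mem_insert_self _ _))
      (ih fun z hz => h z (Finset.mem_insert_of_mem hz)) (by positivity) (Ex_ind_nonneg hw _)

theorem image_mass (I : Finset (Fin (k + 1) → V)) (W : (Fin (k + 1) → V) → ℝ) {μ : ℝ}
    (hW : ∀ c, 0 ≤ W c) (h : ∀ i v, ∑ c ∈ I, W c * ind (c i = v) ≤ μ) (v : V) :
    ∑ c ∈ I, W c * ind (v ∈ Finset.univ.image c) ≤ (k + 1) * μ := by
  have h1 : ∀ c : Fin (k + 1) → V, ind (v ∈ Finset.univ.image c) ≤ ∑ i, ind (c i = v) := fun c =>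
    (ind_mono Finset.mem_image.1).trans (stepa_ex _ _)
  refine (Finset.sum_le_sum fun c _ => mul_le_mul_of_nonneg_left (h1 c) (hW c)).trans ?_
  simp only [Finset.mul_sum]
  rw [Finset.sum_comm]
  refine (Finset.sum_le_card_nsmul _ _ μ fun i _ => h i v).trans_eq ?_
  rw [Finset.card_univ, Fintype.card_fin, nsmul_eq_mul, Nat.cast_succ]

theorem push_sum {κ : Type*} (I : Finset κ) (W : κ → ℝ) (z : κ → V) (g : V → ℝ) :
    ∑ y ∈ I.image z, (∑ l ∈ I, W l * ind (z l = y)) * g y = ∑ l ∈ I, W l * g (z l) := by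
  simp only [Finset.sum_mul]
  rw [Finset.sum_comm]
  refine Finset.sum_congr rfl fun l hl => ?_
  rw [Finset.sum_eq_single_of_mem (z l) (Finset.mem_image_of_mem z hl) fun y _ hy => by
    rw [ind_neg (Ne.symm hy), mul_zero, zero_mul], ind_pos rfl, mul_one]

end Vale.Agent.P151G
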