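import Vale.Agent.P151G.VarA

/-! The variance bound. -/

namespace Vale.Agent.P151G

open Vale.Agent.P151

variable {V κ : Type*} [DecidableEq V] {nb : V → Finset V} {Δ m n : ℕ}

theorem var_row (hnb : Nb nb Δ) (I : Finset κ) (W β : κ → ℝ) (A : κ → Finset V) (A₀ : Finset V)
    {μ β₀ : ℝ} (hμ : 0 ≤ μ) (hβ₀ : 0 < β₀) (hW : ∀ l ∈ I, 0 ≤ W l) (hβ0 : ∀ l ∈ I, β₀ ≤ β l)
    (hin : ∀ v, ∑ l ∈ I, W l * ind (v ∈ A l) ≤ μ) (ω : Finset (Sym2 V)) :
    ind (AllB nb m n A₀ ω) * ∑ l ∈ I, W l / β l * ind (AllB nb m n (A l) ω) ≤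
      ∑ l ∈ I, W l / β l * ind (Vale.Agent.P165.Box (AllB nb m n A₀) (AllB nb m n (A l)) ω) +
        A₀.card * (n : ℝ) ^ 2 * ((Δ : ℝ) + 1) ^ m * μ / β₀ := by
  have hq : ∀ l ∈ I, 0 ≤ W l / β l := fun l hl => div_nonneg (hW l hl) (hβ₀.le.trans (hβ0 l hl))
  by_cases h : AllB nb m n A₀ ω
  · obtain ⟨Bad, hc, hB⟩ := var_box hnb A₀ ω h
    have hc' : (Bad.card : ℝ) ≤ A₀.card * (n : ℝ) ^ 2 * ((Δ : ℝ) + 1) ^ m := by exact_mod_cast hc
    have h1 : ∑ l ∈ I, W l / β₀ * ∑ v ∈ Bad, ind (v ∈ A l) ≤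
        A₀.card * (n : ℝ) ^ 2 * ((Δ : ℝ) + 1) ^ m * μ / β₀ := by
      have e : ∑ l ∈ I, W l / β₀ * ∑ v ∈ Bad, ind (v ∈ A l) =
          (∑ v ∈ Bad, ∑ l ∈ I, W l * ind (v ∈ A l)) / β₀ := by
        rw [Finset.sum_comm, Finset.sum_div]
        refine Finset.sum_congr rfl fun l _ => ?_
        rw [← Finset.mul_sum]
        ring
      rw [e]
      refine div_le_div_of_nonneg_right ?_ hβ₀.le
      refine (Finset.sum_le_card_nsmul _ _ μ fun v _ => hin v).trans ?_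
      rw [nsmul_eq_mul]
      exact mul_le_mul_of_nonneg_right hc' hμ
    rw [ind_pos h, one_mul]
    refine le_trans ?_ (add_le_add le_rfl h1)
    rw [← Finset.sum_add_distrib]
    refine Finset.sum_le_sum fun l hl => ?_
    have h0 : 0 ≤ ∑ v ∈ Bad, ind (v ∈ A l) := Finset.sum_nonneg fun _ _ => ind_nonneg _
    have hw0 : 0 ≤ W l / β₀ := div_nonneg (hW l hl) hβ₀.le
    by_cases h2 : ∀ y ∈ A l, y ∉ Bad
    · exact le_add_of_le_of_nonneg
        (mul_le_mul_of_nonneg_left (ind_mono fun h3 => hB _ h3 h2) (hq l hl)) (mul_nonneg hw0 h0)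
    · push Not at h2
      obtain ⟨y, hy, hy'⟩ := h2
      have h3 : ind (y ∈ A l) ≤ ∑ v ∈ Bad, ind (v ∈ A l) :=
        Finset.single_le_sum (f := fun v => ind (v ∈ A l)) (fun _ _ => ind_nonneg _) hy'
      rw [ind_pos hy] at h3
      exact le_add_of_nonneg_of_le (mul_nonneg (hq l hl) (ind_nonneg _))
        (mul_le_mul (div_le_div_of_nonneg_left (hW l hl) hβ₀ (hβ0 l hl))
          ((ind_le_one _).trans h3) (ind_nonneg _) hw0)
  · rw [ind_neg h, zero_mul]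
    exact add_nonneg (Finset.sum_nonneg fun l hl => mul_nonneg (hq l hl) (ind_nonneg _))
      (by positivity)

theorem var_bound (hnb : Nb nb Δ) {w : Sym2 V → ℝ} (hw : Wt w) (F : Finset (Sym2 V))
    (I : Finset κ) (W β : κ → ℝ) (A : κ → Finset V) (K : ℕ) {μ β₀ : ℝ} (hμ : 0 ≤ μ) (hβ₀ : 0 < β₀)
    (hW : ∀ l ∈ I, 0 ≤ W l) (hW1 : ∑ l ∈ I, W l = 1) (hK : ∀ l ∈ I, (A l).card ≤ K)
    (hβ : ∀ l ∈ I, β l = Ex w F (fun ω => ind (AllB nb m n (A l) ω))) (hβ0 : ∀ l ∈ I, β₀ ≤ β l)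
    (hin : ∀ v, ∑ l ∈ I, W l * ind (v ∈ A l) ≤ μ) :
    Ex w F (fun ω => (∑ l ∈ I, W l * (ind (AllB nb m n (A l) ω) / β l - 1)) ^ 2) ≤
      K * (n : ℝ) ^ 2 * ((Δ : ℝ) + 1) ^ m * μ / β₀ ^ 2 := by
  have hp : ∀ l ∈ I, 0 < β l := fun l hl => hβ₀.trans_le (hβ0 l hl)
  have hq : ∀ l ∈ I, 0 ≤ W l / β l := fun l hl => div_nonneg (hW l hl) (hp l hl).le
  set D := K * (n : ℝ) ^ 2 * ((Δ : ℝ) + 1) ^ m * μ / β₀ with hD
  have hD0 : 0 ≤ D := by positivity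
  set Y : Finset (Sym2 V) → ℝ := fun ω => ∑ l ∈ I, W l / β l * ind (AllB nb m n (A l) ω) with hY
  have e1 : ∀ ω, (∑ l ∈ I, W l * (ind (AllB nb m n (A l) ω) / β l - 1)) ^ 2 =
      Y ω * Y ω - 2 * Y ω + 1 := fun ω => by
    have : ∑ l ∈ I, W l * (ind (AllB nb m n (A l) ω) / β l - 1) = Y ω - 1 := by
      have e0 : Y ω - 1 = Y ω - ∑ l ∈ I, W l := by rw [hW1]
      rw [e0, hY, ← Finset.sum_sub_distrib]
      exact Finset.sum_congr rfl fun l _ => by ring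
    rw [this]
    ring
  have e2 : Ex w F Y = 1 := by
    rw [hY, Ex_sum, ← hW1]
    refine Finset.sum_congr rfl fun l hl => ?_
    rw [Ex_mul_left, ← hβ l hl, div_mul_cancel₀ _ (hp l hl).ne']
  have h3 : ∀ l ∈ I, Ex w F (fun ω => ind (AllB nb m n (A l) ω) * Y ω) ≤ β l + D := fun l hl => by
    refine (Ex_mono hw fun ω _ => var_row hnb I W β A (A l) hμ hβ₀ hW hβ0 hin ω).trans ?_
    rw [Ex_add, Ex_const, Ex_sum]
    refine add_le_add ?_ ?_
    · rw [← mul_one (β l), ← hW1, Finset.mul_sum]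
      refine Finset.sum_le_sum fun l' hl' => ?_
      rw [Ex_mul_left]
      refine (mul_le_mul_of_nonneg_left (Vale.Agent.P165.bk hw F (fun _ _ h h' => h'.mono h)
        (fun _ _ h h' => h'.mono h)) (hq l' hl')).trans (le_of_eq ?_)
      rw [← hβ l hl, ← hβ l' hl']
      field_simp [(hp l' hl').ne']
    · have : ((A l).card : ℝ) ≤ K := by exact_mod_cast hK l hl
      rw [hD]
      gcongr
  have h4 : Ex w F (fun ω => Y ω * Y ω) ≤ 1 + D / β₀ := by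
    have e : (fun ω => Y ω * Y ω) =
        fun ω => ∑ l ∈ I, W l / β l * (ind (AllB nb m n (A l) ω) * Y ω) := by
      funext ω
      conv_lhs => rw [hY]
      rw [Finset.sum_mul]
      exact Finset.sum_congr rfl fun l _ => by ring
    rw [e, Ex_sum, ← one_mul (1 + D / β₀), ← hW1, Finset.sum_mul]
    refine Finset.sum_le_sum fun l hl => ?_
    rw [Ex_mul_left, hW1]
    refine (mul_le_mul_of_nonneg_left (h3 l hl) (hq l hl)).trans ?_
    rw [mul_add, mul_add, div_mul_cancel₀ _ (hp l hl).ne', mul_one, div_mul_eq_mul_div,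
      mul_div_assoc]
    exact add_le_add le_rfl (mul_le_mul_of_nonneg_left
      (div_le_div_of_nonneg_left hD0 hβ₀ (hβ0 l hl)) (hW l hl))
  simp only [e1]
  rw [Ex_add, Ex_sub, Ex_mul_left, Ex_const, e2, sq β₀, ← div_div]
  linarith

end Vale.Agent.P151G
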