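import Vale.Agent.P151G.Defs

/-! Mass joined through small clusters is small. -/

namespace Vale.Agent.P151G

open Vale.Agent.P151

variable {V : Type*} [DecidableEq V] {nb : V → Finset V} {Δ m n t : ℕ}

theorem xs_big (hnb : Nb nb Δ) (x : V) (A : Finset V) (ν : V → ℝ) {α : ℝ}
    (hν : ∀ y, 0 ≤ ν y ∧ ν y ≤ α) (ω : Finset (Sym2 V)) :
    ∑ y ∈ A, ν y * ind (Link nb m x y ω) ≤
      ∑ y ∈ A, ν y * ind (LinkB nb m n x y ω) + (((Δ : ℝ) + 1) ^ m) ^ 2 * n * α := by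
  classical
  obtain ⟨Z, hZ⟩ : ∃ Z : Finset V, Z = ((ball nb m x).filter fun u => ¬ Big n u ω).biUnion
    fun u => (clu ω u).biUnion (ball nb m) := ⟨_, rfl⟩
  have h1 : Z.card ≤ (Δ + 1) ^ m * (n * (Δ + 1) ^ m) := by
    rw [hZ]
    refine (Finset.card_biUnion_le_card_mul _ _ _ fun u hu => ?_).trans
      (Nat.mul_le_mul_right _ ((Finset.card_filter_le _ _).trans (card_ball hnb)))
    exact (Finset.card_biUnion_le_card_mul _ _ _ fun v _ => card_ball hnb).trans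
      (Nat.mul_le_mul_right _ (not_le.1 (Finset.mem_filter.1 hu).2).le)
  have h2 : ∀ y, ind (Link nb m x y ω) ≤ ind (LinkB nb m n x y ω) + if y ∈ Z then 1 else 0 := by
    intro y
    by_cases k : Link nb m x y ω
    · obtain ⟨u, hu, v, hv, huv⟩ := id k
      rw [ind_pos k]
      by_cases k1 : Big n u ω
      · rw [ind_pos (show LinkB nb m n x y ω from ⟨u, hu, v, hv, huv, k1⟩)]
        split_ifs <;> norm_num
      · rw [if_pos (hZ ▸ Finset.mem_biUnion.2 ⟨u, Finset.mem_filter.2 ⟨hu, k1⟩,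
          Finset.mem_biUnion.2 ⟨v, mem_clu.2 huv, ball_symm hnb hv⟩⟩)]
        linarith [ind_nonneg (LinkB nb m n x y ω)]
    · rw [ind_neg k]
      exact add_nonneg (ind_nonneg _) (by split_ifs <;> norm_num)
  have h0 : 0 ≤ α := (hν x).1.trans (hν x).2
  have h3 : ∑ y ∈ A, ν y * (if y ∈ Z then (1 : ℝ) else 0) ≤ Z.card * α := by
    simp only [mul_ite, mul_one, mul_zero, Finset.sum_ite_mem]
    refine (Finset.sum_le_card_nsmul _ _ α fun y _ => (hν y).2).trans ?_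
    rw [nsmul_eq_mul]
    exact mul_le_mul_of_nonneg_right
      (Nat.cast_le.2 (Finset.card_le_card Finset.inter_subset_right)) h0
  have h4 : (Z.card : ℝ) ≤ (((Δ : ℝ) + 1) ^ m) ^ 2 * n := by
    have : (Z.card : ℝ) ≤ ((Δ : ℝ) + 1) ^ m * (n * ((Δ : ℝ) + 1) ^ m) := by exact_mod_cast h1
    linarith
  refine (Finset.sum_le_sum fun y _ => mul_le_mul_of_nonneg_left (h2 y) (hν y).1).trans ?_
  simp only [mul_add, Finset.sum_add_distrib]
  exact add_le_add le_rfl (h3.trans (mul_le_mul_of_nonneg_right h4 h0))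

theorem xs_half (hnb : Nb nb Δ) (ht : 2 ≤ t) (hB : 2 * (((Δ : ℝ) + 1) ^ m) ^ 2 ≤ t) (x : V)
    (A : Finset V) (ν : V → ℝ) (hν : ∀ y, 0 ≤ ν y ∧ ν y ≤ 1 / (t : ℝ) ^ 30) (ω : Finset (Sym2 V))
    (h : 1 / (t : ℝ) ≤ ∑ y ∈ A, ν y * ind (Link nb m x y ω)) :
    1 / (2 * (t : ℝ)) ≤ ∑ y ∈ A, ν y * ind (LinkB nb m (t ^ 10) x y ω) := by
  have h1 := xs_big (m := m) (n := t ^ 10) hnb x A ν hν ω
  have h2 : (2 : ℝ) ≤ t := by exact_mod_cast ht
  have h0 : (0 : ℝ) < t := by linarith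
  have h3 : (((Δ : ℝ) + 1) ^ m) ^ 2 * ((t ^ 10 : ℕ) : ℝ) * (1 / (t : ℝ) ^ 30) ≤ 1 / (2 * t) := by
    have k : (t : ℝ) ^ 12 ≤ t ^ 30 := pow_le_pow_right₀ (by linarith) (by norm_num)
    rw [mul_one_div, div_le_div_iff₀ (by positivity) (by positivity), Nat.cast_pow]
    nlinarith [mul_le_mul_of_nonneg_right hB (show (0 : ℝ) ≤ t ^ 11 by positivity)]
  have h4 : 1 / (t : ℝ) = 1 / (2 * t) + 1 / (2 * t) := by field_simp; ring
  linarith

theorem hyp_big (hnb : Nb nb Δ) {p ε : ℝ} (hp0 : 0 ≤ p) (hp1 : p ≤ 1) (ht : 2 ≤ t)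
    (hB : 2 * (((Δ : ℝ) + 1) ^ m) ^ 2 ≤ t) (h : Hyp nb p m t ε) (y : V) :
    Lb (fun _ => p) (IsE nb) (fun ω => ind (BigU nb m (t ^ 10) y ω)) (1 - ε) := by
  obtain ⟨A, ν, h1, -, h2⟩ := h y
  refine h2.fn (fun _ => ⟨hp0, hp1⟩) fun ω _ => ind_mono fun k => ?_
  have h3 := xs_half hnb ht hB y A ν h1 ω k
  have h0 : (0 : ℝ) < t := by exact_mod_cast (by omega : 0 < t)
  by_contra hn
  rw [Finset.sum_eq_zero fun z _ => by
    rw [ind_neg fun ⟨u, hu, _, _, _, k1⟩ => hn ⟨u, hu, k1⟩, mul_zero]] at h3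
  exact absurd h3 (not_le.2 (by positivity))

end Vale.Agent.P151G
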