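import Vale.Agent.P151G.StepA
import Vale.Agent.P151G.Cov
import Vale.Agent.P151G.Var
import Vale.Agent.P151G.Xs

/-! The induction step in a fixed finite volume. -/

namespace Vale.Agent.P151G

open Vale.Agent.P151

variable {V : Type*} [DecidableEq V] {nb : V → Finset V} {Δ : ℕ}

theorem stepb_num {t B C k : ℝ} (ht : 2 ≤ t) (hk0 : 0 ≤ k) (hk : k ≤ t) (hB1 : 1 ≤ B) (hC : 1 ≤ C)
    (hB : 2 * B ^ 2 * C ≤ t) :
    k * (t ^ 10) ^ 2 * B * (k * (C * (1 / t ^ 30))) / (1 / t) ^ 2 ≤ (1 / t ^ 2) ^ 2 := by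
  have ht0 : 0 < t := by linarith
  have h0 : 0 ≤ B * C := mul_nonneg (by linarith) (by linarith)
  have h1 : B * C ≤ t := by nlinarith [mul_nonneg (sub_nonneg.2 hB1) h0]
  have h2 : k * (t ^ 10) ^ 2 * B * (k * (C * (1 / t ^ 30))) / (1 / t) ^ 2 =
      k ^ 2 * (B * C) / t ^ 8 := by field_simp
  have h3 : k ^ 2 * (B * C) ≤ t ^ 2 * t :=
    mul_le_mul (pow_le_pow_left₀ hk0 hk 2) h1 (by positivity) (by positivity)
  have h4 : (1 / t ^ 2) ^ 2 = t ^ 2 * t ^ 2 / t ^ 8 := by field_simp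
  rw [h2, h4]
  refine div_le_div_of_nonneg_right (h3.trans ?_) (by positivity)
  exact mul_le_mul_of_nonneg_left (by nlinarith) (by positivity)

theorem step_core (hnb : Nb nb Δ) {w : Sym2 V → ℝ} (hw : Wt w) (F : Finset (Sym2 V))
    (m k t : ℕ) (x : V) (A : Finset V) (ν : V → ℝ) (I : Finset (Fin (k + 1) → V))
    (W : (Fin (k + 1) → V) → ℝ) {q ε T C : ℝ} (ht : 2 ≤ t) (hq0 : 0 ≤ q) (hq1 : q ≤ 1)
    (hν : ∀ y, 0 ≤ ν y ∧ ν y ≤ 1 / (t : ℝ) ^ 30) (hA : ∑ y ∈ A, ν y = 1) (hW : ∀ c, 0 ≤ W c)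
    (hst : ∀ g : V → ℝ, ∑ c ∈ I, W c * g (c 0) = ∑ y ∈ A, ν y * g y)
    (hin : ∀ i v, ∑ c ∈ I, W c * ind (c i = v) ≤ C * (1 / (t : ℝ) ^ 30))
    (hβ : 1 / (t : ℝ) ≤ (1 - q) ^ (k + 1)) (hk : k + 1 ≤ t) (hC : 1 ≤ C)
    (hB : 2 * (((Δ : ℝ) + 1) ^ m) ^ 2 * C ≤ t) (hT0 : 0 ≤ T)
    (hT : k * (((Δ : ℝ) + 1) ^ m) ^ 2 * T ≤ 1 / (t : ℝ) ^ 3)
    (hbig : ∀ c ∈ I, ∀ i, 1 - q ≤ Ex w F (fun ω => ind (BigU nb m (t ^ 10) (c i) ω)))
    (htw : ∀ c ∈ I, ∀ i : Fin k, ∀ u ∈ ball nb m (c i.castSucc), ∀ v ∈ ball nb m (c i.succ),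
      Ex w F (fun ω => ind (Tw (t ^ 10) u v ω)) ≤ T)
    (hX : 1 - ε ≤ Ex w F (fun ω => ind (1 / (t : ℝ) ≤ ∑ y ∈ A, ν y * ind (Link nb m x y ω)))) :
    1 - (ε + 6 / t) ≤ Ex w F (fun ω => ind (1 / (t : ℝ) ^ 3 ≤
      ∑ c ∈ I, W c * ind (Link nb m x (c (Fin.last k)) ω))) := by
  have ht2 : (2 : ℝ) ≤ t := by exact_mod_cast ht
  have ht0 : (0 : ℝ) < t := by linarith
  have hB1 : (1 : ℝ) ≤ ((Δ : ℝ) + 1) ^ m :=
    one_le_pow₀ (by linarith [(Nat.cast_nonneg Δ : (0 : ℝ) ≤ _)])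
  have hW1 : ∑ c ∈ I, W c = 1 := by simpa [hA] using hst (fun _ => 1)
  set n := t ^ 10 with hn
  set X' : Finset (Sym2 V) → ℝ := fun ω => ∑ c ∈ I, W c * ind (Link nb m x (c (Fin.last k)) ω)
    with hX'
  set β : (Fin (k + 1) → V) → ℝ :=
    fun c => Ex w F (fun ω => ind (AllB nb m n (Finset.univ.image c) ω)) with hβd
  have hcard : ∀ c : Fin (k + 1) → V, (Finset.univ.image c).card ≤ k + 1 := fun c =>
    Finset.card_image_le.trans (by simp)
  have hβ0 : ∀ c ∈ I, 1 / (t : ℝ) ≤ β c := fun c hc =>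
    hβ.trans (allB_ge hw F _ (k + 1) hq0 hq1 (hcard c) fun y hy => by
      obtain ⟨i, -, rfl⟩ := Finset.mem_image.1 hy
      exact hbig c hc i)
  have hvar := var_bound (m := m) (n := n) hnb hw F I W β (fun c => Finset.univ.image c) (k + 1)
    (μ := (k + 1) * (C * (1 / (t : ℝ) ^ 30))) (β₀ := 1 / t) (by positivity) (by positivity)
    (fun c _ => hW c) hW1 (fun c _ => hcard c) (fun _ _ => rfl) hβ0 (image_mass I W hW hin)
  have hvar' := hvar.trans (by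
    have := stepb_num (k := (k : ℝ) + 1) ht2 (by positivity) (by exact_mod_cast hk) hB1 hC hB
    rw [hn]
    push_cast
    exact this : _ ≤ (1 / (t : ℝ) ^ 2) ^ 2)
  have hcov := cov_trick hw F I W β (fun ω => 1 / (t : ℝ) ^ 3 ≤ X' ω)
    (fun c ω => LinkB nb m n x (c 0) ω) (fun c ω => AllB nb m n (Finset.univ.image c) ω)
    (σ := 1 / (t : ℝ) ^ 2) (by positivity) (fun c _ => hW c)
    (fun a b hab h => h.trans (link_sum_mono I W (fun c => c (Fin.last k)) (fun c _ => hW c) hab))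
    (fun c _ a b hab h => h.mono hab) (fun c _ a b hab h => h.mono hab) (fun _ _ => rfl)
    (fun c hc => lt_of_lt_of_le (by positivity) (hβ0 c hc)) hvar'
  have hR : Ex w F (fun ω => ind (¬ 1 / (t : ℝ) ^ 3 ≤ X' ω) * ∑ c ∈ I, W c *
      (ind (LinkB nb m n x (c 0) ω) * ind (AllB nb m n (Finset.univ.image c) ω) / β c)) ≤
        t * (1 / (t : ℝ) ^ 3 + 1 / (t : ℝ) ^ 3) := by
    have h1 : Ex w F (fun ω => ∑ c ∈ I, W c * ind (Taint nb m n c ω)) ≤ 1 / (t : ℝ) ^ 3 := by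
      rw [Ex_sum]
      calc _ ≤ ∑ c ∈ I, W c * (1 / (t : ℝ) ^ 3) := Finset.sum_le_sum fun c hc => by
              rw [Ex_mul_left]
              exact mul_le_mul_of_nonneg_left
                ((taint_le hnb hw F c hT0 (htw c hc)).trans hT) (hW c)
        _ = _ := by rw [← Finset.sum_mul, hW1, one_mul]
    refine (Ex_mono hw (g := fun ω => t * (1 / (t : ℝ) ^ 3 +
      ∑ c ∈ I, W c * ind (Taint nb m n c ω))) fun ω _ => ?_).trans ?_
    · have h2 : ∑ c ∈ I, W c *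
          (ind (LinkB nb m n x (c 0) ω) * ind (AllB nb m n (Finset.univ.image c) ω) / β c) ≤
          t * (X' ω + ∑ c ∈ I, W c * ind (Taint nb m n c ω)) := by
        rw [hX', ← Finset.sum_add_distrib, Finset.mul_sum]
        refine Finset.sum_le_sum fun c hc => ?_
        have h3 : ind (LinkB nb m n x (c 0) ω) * ind (AllB nb m n (Finset.univ.image c) ω) ≤
            ind (Link nb m x (c (Fin.last k)) ω) + ind (Taint nb m n c ω) := by
          rw [← ind_and]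
          by_cases h4 : Taint nb m n c ω
          · rw [ind_pos h4]
            linarith [ind_le_one (LinkB nb m n x (c 0) ω ∧ AllB nb m n (Finset.univ.image c) ω),
              ind_nonneg (Link nb m x (c (Fin.last k)) ω)]
          · rw [ind_neg h4, add_zero]
            exact ind_mono fun h5 => chain_link h5.1 h5.2 h4
        have h4 : ind (LinkB nb m n x (c 0) ω) * ind (AllB nb m n (Finset.univ.image c) ω) / β c ≤
            t * (ind (Link nb m x (c (Fin.last k)) ω) + ind (Taint nb m n c ω)) := by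
          refine (div_le_div₀ (add_nonneg (ind_nonneg _) (ind_nonneg _)) h3 (by positivity)
            (hβ0 c hc)).trans (le_of_eq ?_)
          field_simp
        calc _ ≤ W c * (t * (ind (Link nb m x (c (Fin.last k)) ω) + ind (Taint nb m n c ω))) :=
              mul_le_mul_of_nonneg_left h4 (hW c)
          _ = _ := by ring
      have h5 : 0 ≤ ∑ c ∈ I, W c * ind (Taint nb m n c ω) :=
        Finset.sum_nonneg fun c _ => mul_nonneg (hW c) (ind_nonneg _)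
      by_cases hQ : 1 / (t : ℝ) ^ 3 ≤ X' ω
      · rw [ind_neg (not_not.2 hQ), zero_mul]
        positivity
      · rw [ind_pos hQ, one_mul]
        exact h2.trans (mul_le_mul_of_nonneg_left (by linarith [not_le.1 hQ]) ht0.le)
    · rw [Ex_mul_left, Ex_add, Ex_const]
      exact mul_le_mul_of_nonneg_left (by linarith) ht0.le
  have hL : Ex w F (fun ω => (1 / (2 * (t : ℝ))) *
      (ind (1 / (t : ℝ) ≤ ∑ y ∈ A, ν y * ind (Link nb m x y ω)) - ind (1 / (t : ℝ) ^ 3 ≤ X' ω))) ≤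
      Ex w F (fun ω => ind (¬ 1 / (t : ℝ) ^ 3 ≤ X' ω) *
        ∑ c ∈ I, W c * ind (LinkB nb m n x (c 0) ω)) := by
    refine Ex_mono hw fun ω _ => ?_
    rw [hst (fun y => ind (LinkB nb m n x y ω))]
    have h1 : 0 ≤ ∑ y ∈ A, ν y * ind (LinkB nb m n x y ω) :=
      Finset.sum_nonneg fun y _ => mul_nonneg (hν y).1 (ind_nonneg _)
    have h0 : (0 : ℝ) < 1 / (2 * (t : ℝ)) := by positivity
    by_cases hQ : 1 / (t : ℝ) ^ 3 ≤ X' ω
    · rw [ind_neg (not_not.2 hQ), zero_mul, ind_pos hQ]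
      exact mul_nonpos_of_nonneg_of_nonpos h0.le (sub_nonpos.2 (ind_le_one _))
    · rw [ind_pos hQ, ind_neg hQ, one_mul, sub_zero]
      by_cases hP : 1 / (t : ℝ) ≤ ∑ y ∈ A, ν y * ind (Link nb m x y ω)
      · rw [ind_pos hP, mul_one]
        exact xs_half hnb ht (by nlinarith [sq_nonneg (((Δ : ℝ) + 1) ^ m)]) x A ν hν ω hP
      · rwa [ind_neg hP, mul_zero]
  rw [Ex_mul_left, Ex_sub] at hL
  have hfin := hL.trans (hcov.trans (add_le_add_left hR _))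
  have e1 : (t : ℝ) * (1 / (t : ℝ) ^ 3 + 1 / (t : ℝ) ^ 3) + 1 / (t : ℝ) ^ 2 =
      1 / (2 * (t : ℝ)) * (6 / t) := by
    field_simp
    ring
  rw [e1] at hfin
  have := le_of_mul_le_mul_left hfin (by positivity)
  linarith

end Vale.Agent.P151G
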