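import Vale.Agent.P151G.Wit

/-! Disjoint occurrence away from a small bad set. -/

namespace Vale.Agent.P151G

open Vale.Agent.P151

variable {V : Type*} [DecidableEq V] {nb : V → Finset V} {Δ m n : ℕ}

/-- Removing edges with both ends in `S` does not change a cluster that misses `S` afterwards. -/
theorem vara_clu {ω W : Finset (Sym2 V)} {S : Finset V} (hW : ∀ e ∈ W, ∀ v ∈ e, v ∈ S) {u : V}
    (h : ∀ s ∈ S, ¬ Conn (ω \ W) u s) : clu ω u ⊆ clu (ω \ W) u := by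
  intro v hv
  refine mem_clu.2 (Conn.closed (P := fun x => Conn (ω \ W) u x) (mem_clu.1 hv) (Conn.refl _ _) ?_)
  intro x y hx hxy
  refine hx.tail (Finset.mem_sdiff.2 ⟨hxy, fun he => ?_⟩)
  exact h x (hW _ he x (Sym2.mem_mk_left x y)) hx

theorem var_box (hnb : Nb nb Δ) (A : Finset V) (ω : Finset (Sym2 V)) (h : AllB nb m n A ω) :
    ∃ Bad : Finset V, Bad.card ≤ A.card * n ^ 2 * (Δ + 1) ^ m ∧
      ∀ A' : Finset V, AllB nb m n A' ω → (∀ y ∈ A', y ∉ Bad) →
        Vale.Agent.P165.Box (AllB nb m n A) (AllB nb m n A') ω := by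
  classical
  have h1 : ∀ y ∈ A, ∃ (u : V) (S : Finset V) (W : Finset (Sym2 V)), u ∈ ball nb m y ∧
      S.card ≤ n ∧ W ⊆ ω ∧ (∀ e ∈ W, ∀ v ∈ e, v ∈ S) ∧ Big n u W := by
    intro y hy
    obtain ⟨u, hu, hb⟩ := h y hy
    obtain ⟨S, W, hS⟩ := big_wit hb
    exact ⟨u, S, W, hu, hS⟩
  choose! u S W hu hS hW hE hB using h1
  have hWω : A.biUnion W ⊆ ω := Finset.biUnion_subset.2 hW
  have hES : ∀ e ∈ A.biUnion W, ∀ v ∈ e, v ∈ A.biUnion S := by
    intro e he v hv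
    obtain ⟨y, hy, he⟩ := Finset.mem_biUnion.1 he
    exact Finset.mem_biUnion.2 ⟨y, hy, hE y hy e he v hv⟩
  have hSc : (A.biUnion S).card ≤ A.card * n := Finset.card_biUnion_le_card_mul _ _ _ hS
  refine ⟨((A.biUnion S).filter (fun s => ¬ Big n s (ω \ A.biUnion W))).biUnion
    (fun s => (clu (ω \ A.biUnion W) s).biUnion (ball nb m)), ?_, fun A' hA' hbad => ?_⟩
  · refine (Finset.card_biUnion_le_card_mul _ _ (n * (Δ + 1) ^ m) fun s hs => ?_).trans ?_
    · refine (Finset.card_biUnion_le_card_mul _ _ ((Δ + 1) ^ m) fun v _ => card_ball hnb).trans ?_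
      exact Nat.mul_le_mul_right _ (not_le.1 (Finset.mem_filter.1 hs).2).le
    · calc _ ≤ A.card * n * (n * (Δ + 1) ^ m) :=
            Nat.mul_le_mul_right _ ((Finset.card_filter_le _ _).trans hSc)
        _ = _ := by ring
  · refine ⟨A.biUnion W, ω \ A.biUnion W, Finset.disjoint_sdiff, hWω, Finset.sdiff_subset,
      fun y hy => ⟨u y, hu y hy, (hB y hy).mono (Finset.subset_biUnion_of_mem W hy)⟩,
      fun y hy => ?_⟩
    obtain ⟨v, hv, hb⟩ := hA' y hy
    refine ⟨v, hv, ?_⟩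
    by_contra hn
    refine hn (le_trans hb (Finset.card_le_card (vara_clu hES fun s hs hc => hbad y hy ?_)))
    exact Finset.mem_biUnion.2 ⟨s, Finset.mem_filter.2 ⟨hs, fun hb' => hn (hb'.conn hc.symm)⟩,
      Finset.mem_biUnion.2 ⟨v, mem_clu.2 hc.symm, ball_symm hnb hv⟩⟩

end Vale.Agent.P151G
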